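import Mathlib

/-!
# The free uniform spanning forest: definitions
-/

open MeasureTheory Filter Topology

namespace Vale.Agent.P143

variable {V : Type*}

/-- The law of i.i.d. uniform labels in `[0,1]` on the vertices. -/
noncomputable def vertexLabels (V : Type*) : Measure (V → unitInterval) :=
  Measure.infinitePi fun _ : V => volume

open Classical in
/-- The adjacency function of a graph. -/
noncomputable def adjFun (G : SimpleGraph V) : V → V → Bool := fun v w => decide (G.Adj v w)

/-- The spanning trees of a subgraph: its subgraphs on all of its vertices that are trees. -/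
def spanningTrees {G : SimpleGraph V} (H : G.Subgraph) : Set G.Subgraph :=
  {T | T ≤ H ∧ T.verts = H.verts ∧ T.coe.IsTree}

/-- The probability that a uniformly random spanning tree of `H` shows the pattern `p` on `D`. -/
noncomputable def ustProb {G : SimpleGraph V} (H : G.Subgraph) (D : Finset (Sym2 V))
    (p : Sym2 V → Bool) : ℝ :=
  ({T ∈ spanningTrees H | ∀ e ∈ D, (e ∈ T.edgeSet ↔ p e = true)}.ncard : ℝ) /
    ((spanningTrees H).ncard : ℝ)

/-- An exhaustion by finite connected subgraphs with union `G`. -/
def IsExhaustion (G : SimpleGraph V) (H : ℕ → G.Subgraph) : Prop :=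
  Monotone H ∧ (∀ n, (H n).verts.Finite ∧ (H n).Connected) ∧ (∀ v, ∃ n, v ∈ (H n).verts) ∧
    ∀ e ∈ G.edgeSet, ∃ n, e ∈ (H n).edgeSet

/-- `μ` is the free uniform spanning forest of `G`: exhaustions exist, and along every exhaustion
the spanning tree probabilities of every cylinder event tend to its `μ`-probability. -/
def IsFUSF (G : SimpleGraph V) (μ : Measure (Sym2 V → Bool)) : Prop :=
  IsProbabilityMeasure μ ∧ (∃ H, IsExhaustion G H) ∧
    ∀ H, IsExhaustion G H → ∀ (D : Finset (Sym2 V)) (p : Sym2 V → Bool),
      Tendsto (fun n => ustProb (H n) D p) atTop (𝓝 (μ {ω | ∀ e ∈ D, ω e = p e}).toReal)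

end Vale.Agent.P143
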