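import Vale.Agent.P143.Defs

/-!
# Exhaustions exist
-/

namespace Vale.Agent.P143

variable {V : Type*} (G : SimpleGraph V) (o : V)

/-- Breadth-first layers. -/
def layer : ℕ → Set V
  | 0 => {o}
  | n + 1 => layer n ∪ ⋃ w ∈ layer n, G.neighborSet w

lemma layer_subset {m n : ℕ} (h : m ≤ n) : layer G o m ⊆ layer G o n := by
  induction h with
  | refl => exact subset_rfl
  | step _ ih => exact ih.trans Set.subset_union_left

lemma layer_zero_mem (n : ℕ) : o ∈ layer G o n :=
  layer_subset G o (Nat.zero_le n) rfl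

lemma layer_finite [G.LocallyFinite] : ∀ n, (layer G o n).Finite
  | 0 => Set.finite_singleton o
  | n + 1 => (layer_finite n).union ((layer_finite n).biUnion fun w _ => Set.toFinite _)

lemma layer_reachable : ∀ (n : ℕ) (v : V) (hv : v ∈ layer G o n),
    (G.induce (layer G o n)).Reachable ⟨o, layer_zero_mem G o n⟩ ⟨v, hv⟩
  | 0, v, hv => by
    obtain rfl : v = o := hv
    exact SimpleGraph.Reachable.refl _
  | n + 1, v, hv => by
    have up : ∀ w (hw : w ∈ layer G o n), (G.induce (layer G o (n + 1))).Reachable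
        ⟨o, layer_zero_mem G o (n + 1)⟩ ⟨w, layer_subset G o n.le_succ hw⟩ := fun w hw =>
      (layer_reachable n w hw).map
        (G.induceHomOfLE (layer_subset G o n.le_succ)).toHom
    rcases hv with hv' | hv'
    · exact up v hv'
    · simp only [Set.mem_iUnion] at hv'
      obtain ⟨w, hw, hwv⟩ := hv'
      exact (up w hw).trans (SimpleGraph.Adj.reachable
        (show (G.induce (layer G o (n + 1))).Adj ⟨w, layer_subset G o n.le_succ hw⟩ ⟨v, _⟩ from hwv))

lemma exists_mem_layer (hG : G.Connected) (v : V) : ∃ n, v ∈ layer G o n := by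
  have gen : ∀ a b, G.Walk a b → (∃ n, a ∈ layer G o n) → ∃ n, b ∈ layer G o n := by
    intro a b q
    induction q with
    | nil => exact id
    | @cons a b c h _ ih =>
      rintro ⟨n, hn⟩
      exact ih ⟨n + 1, Or.inr (by simp only [Set.mem_iUnion]; exact ⟨a, hn, h⟩)⟩
  obtain ⟨p⟩ := hG.preconnected o v
  exact gen o v p ⟨0, rfl⟩

lemma exists_exhaustion [G.LocallyFinite] (hG : G.Connected) : ∃ H, IsExhaustion G H := by
  obtain ⟨o⟩ := hG.nonempty
  refine ⟨fun n => (⊤ : G.Subgraph).induce (layer G o n), fun m n h => ?_, fun n => ⟨?_, ?_⟩,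
    fun v => ?_, fun e he => ?_⟩
  · exact SimpleGraph.Subgraph.induce_mono_right (layer_subset G o h)
  · exact layer_finite G o n
  · rw [← SimpleGraph.connected_induce_iff, SimpleGraph.connected_iff_exists_forall_reachable]
    exact ⟨⟨o, layer_zero_mem G o n⟩, fun ⟨v, hv⟩ => layer_reachable G o n v hv⟩
  · exact exists_mem_layer G o hG v
  · induction e using Sym2.ind with
    | _ a b =>
      obtain ⟨i, hi⟩ := exists_mem_layer G o hG a
      obtain ⟨j, hj⟩ := exists_mem_layer G o hG b
      exact ⟨max i j, layer_subset G o (le_max_left i j) hi,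
        layer_subset G o (le_max_right i j) hj, he⟩

end Vale.Agent.P143
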