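import Vale.Agent.P143.Kernel
import Vale.Agent.P161.Finite

/-!
# Finite windows of a determinantal measure
-/

open Filter Topology Matrix
open scoped InnerProductSpace

namespace Vale.Agent.P143

open Vale.Agent.P161 (spin spin_cases spin_mul_self abs_spin)

variable {S : Type*} [DecidableEq S] (C : Kern S)

/-- The matrix of the kernel on a finite window. -/
noncomputable def cmat (A : Finset S) : Matrix A A ℝ := Matrix.of fun a b => C.ent a b

/-- The matrix `1 + H C` on a finite window. -/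
noncomputable def mmat (A : Finset S) (h : S → ℝ) : Matrix A A ℝ :=
  Matrix.of fun a b => (1 : Matrix A A ℝ) a b + h a * C.ent a b

/-- The determinant `det (1 + H C)` on a finite window. -/
noncomputable def Phi (A : Finset S) (h : S → ℝ) : ℝ := (mmat C A h).det

lemma mmat_eq (A : Finset S) (h : S → ℝ) :
    mmat C A h = 1 + Matrix.diagonal (fun a : A => h a) * cmat C A := by
  ext a b
  simp [mmat, cmat, Matrix.diagonal_mul]

lemma Phi_congr (A : Finset S) {h h' : S → ℝ} (e : ∀ a ∈ A, h a = h' a) :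
    Phi C A h = Phi C A h' := by
  unfold Phi mmat
  congr 1
  ext a b
  simp [e a a.2]

/-- A configuration on a window, extended by `false`. -/
def ext' (A : Finset S) (η : A → Bool) (w : S) : Bool := if hw : w ∈ A then η ⟨w, hw⟩ else false

lemma ext'_mem {A : Finset S} (η : A → Bool) (a : A) : ext' A η a = η a := dif_pos a.2

/-- The weight of a configuration. -/
noncomputable def qw (A : Finset S) (η : A → Bool) : ℝ :=
  (1 / 2) ^ A.card * Phi C A (fun w => spin (ext' A η w))

/-- Expectation over the configurations of a window. -/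
noncomputable def Ev (A : Finset S) (f : (S → Bool) → ℝ) : ℝ :=
  ∑ η : A → Bool, qw C A η * f (ext' A η)

/-- The generating function of a window. -/
lemma Ev_prod (A : Finset S) (h : S → ℝ) :
    Ev C A (fun η => ∏ w ∈ A, (1 + spin (η w) * h w)) = Phi C A h := by
  classical
  set g : (A → Bool → (A → ℝ)) := fun a b =>
    (1 + spin b * h a) • fun c => (1 : Matrix A A ℝ) a c + spin b * C.ent a c
  have expand := (Matrix.detRowAlternating (n := A) (R := ℝ)).toMultilinearMap.map_sum g
  have hsum : (fun a => ∑ b, g a b) = fun a => (2 : ℝ) • mmat C A h a := by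
    funext a c
    simp [g, mmat, spin, Fintype.sum_bool]
    ring
  have hterm : ∀ η : A → Bool, qw C A η * ∏ w ∈ A, (1 + spin (ext' A η w) * h w) =
      (1 / 2) ^ A.card * Matrix.det (Matrix.of fun a => g a (η a)) := by
    intro η
    rw [qw, mul_assoc, ← Finset.prod_coe_sort A]
    congr 1
    simp only [ext'_mem]
    rw [mul_comm, Phi, ← Matrix.det_mul_column]
    congr 1
    ext a c
    simp [g, mmat, ext'_mem]
  unfold Ev
  simp only [hterm, ← Finset.mul_sum]
  have e2 : ∑ η : A → Bool, Matrix.det (Matrix.of fun a => g a (η a)) =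
      (2 : ℝ) ^ A.card * Phi C A h := by
    have : (Matrix.detRowAlternating (n := A) (R := ℝ)).toMultilinearMap (fun a => ∑ b, g a b) =
        Matrix.det ((2 : ℝ) • mmat C A h) := by rw [hsum]; rfl
    rw [this, Matrix.det_smul, Fintype.card_coe] at expand
    exact expand.symm
  rw [e2, ← mul_assoc, ← mul_pow]
  norm_num

/-- The vector on a window, as a square summable family. -/
noncomputable def embed (A : Finset S) (x : A → ℝ) : L2 S := ∑ a : A, x a • bas (a : S)

lemma embed_apply {A : Finset S} (x : A → ℝ) (a : A) : embed A x a = x a := by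
  rw [embed, lp.coeFn_sum, Finset.sum_apply, Finset.sum_eq_single a]
  · simp [bas_self]
  · intro b _ hb
    simp [bas_ne (show (a : S) ≠ b from fun e => hb (Subtype.ext e.symm))]
  · simp

lemma norm_embed_sq {A : Finset S} (x : A → ℝ) : ‖embed A x‖ ^ 2 = ∑ a, x a ^ 2 := by
  rw [← real_inner_self_eq_norm_sq]
  nth_rw 1 [embed]
  rw [sum_inner]
  refine Finset.sum_congr rfl fun a _ => ?_
  rw [real_inner_smul_left, inner_bas, embed_apply, pow_two]

lemma sum_sq_cmat_le (A : Finset S) (x : A → ℝ) :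
    ∑ a, (cmat C A *ᵥ x) a ^ 2 ≤ ∑ a, x a ^ 2 := by
  have e : ∀ a : A, (cmat C A *ᵥ x) a = C.op (embed A x) a := fun a => by
    rw [embed, map_sum, lp.coeFn_sum, Finset.sum_apply]
    refine Finset.sum_congr rfl fun b _ => ?_
    simp [cmat, Kern.ent, mul_comm]
  simp only [e]
  rw [← norm_embed_sq x, Finset.sum_coe_sort A (fun s => C.op (embed A x) s ^ 2)]
  exact (sum_le_hasSum A (fun s _ => sq_nonneg _) (hasSum_sq _)).trans
    (pow_le_pow_left₀ (norm_nonneg _) (C.bound _) 2)

lemma Phi_ne_zero (A : Finset S) {h : S → ℝ} (hh : ∀ a ∈ A, |h a| < 1) : Phi C A h ≠ 0 := by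
  intro hz
  obtain ⟨x, hx0, hx⟩ := Matrix.exists_mulVec_eq_zero_iff.mpr hz
  rw [mmat_eq, Matrix.add_mulVec, Matrix.one_mulVec, ← Matrix.mulVec_mulVec] at hx
  set y := cmat C A *ᵥ x
  have hxy : ∀ a : A, x a = -(h a * y a) := fun a => by
    have := congrFun hx a
    simp [Matrix.mulVec_diagonal] at this
    linarith
  have hb := sum_sq_cmat_le C A x
  have h1 : ∀ a : A, 0 < 1 - h a ^ 2 := fun a => by
    obtain ⟨p, q⟩ := abs_lt.mp (hh a a.2)
    nlinarith
  have hsum : ∑ a : A, (1 - h a ^ 2) * y a ^ 2 ≤ 0 := by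
    have : ∑ a : A, (1 - h a ^ 2) * y a ^ 2 = ∑ a, y a ^ 2 - ∑ a, x a ^ 2 := by
      rw [← Finset.sum_sub_distrib]
      exact Finset.sum_congr rfl fun a _ => by rw [hxy a]; ring
    linarith
  have hy : ∀ a : A, y a = 0 := fun a => by
    have hterm := (Finset.single_le_sum (f := fun a : A => (1 - h a ^ 2) * y a ^ 2)
      (fun b _ => mul_nonneg (h1 b).le (sq_nonneg _)) (Finset.mem_univ a)).trans hsum
    have : y a ^ 2 ≤ 0 := nonpos_of_mul_nonpos_right hterm (h1 a) 
    exact (pow_eq_zero_iff (two_ne_zero)).mp (le_antisymm this (sq_nonneg _))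
  exact hx0 (funext fun a => by simp [hxy a, hy a])

omit [DecidableEq S] in
lemma abs_scale {h : S → ℝ} {A : Finset S} (hh : ∀ a ∈ A, |h a| ≤ 1) {t : ℝ} (ht0 : 0 ≤ t)
    (ht1 : t < 1) : ∀ a ∈ A, |t * h a| < 1 := fun a ha => by
  rw [abs_mul, abs_of_nonneg ht0]
  nlinarith [hh a ha, abs_nonneg (h a)]

lemma continuous_Phi_scale (A : Finset S) (h : S → ℝ) :
    Continuous fun t : ℝ => Phi C A fun w => t * h w := by
  unfold Phi mmat
  refine Continuous.matrix_det (continuous_pi fun a => continuous_pi fun b => ?_)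
  simp only [Matrix.of_apply]
  fun_prop

lemma Phi_zero (A : Finset S) : Phi C A (fun _ => 0) = 1 := by
  rw [Phi, mmat_eq]; simp

lemma Phi_nonneg (A : Finset S) {h : S → ℝ} (hh : ∀ a ∈ A, |h a| ≤ 1) : 0 ≤ Phi C A h := by
  have hc := continuous_Phi_scale C A h
  have key : ∀ t ∈ Set.Ico (0 : ℝ) 1, 0 < Phi C A fun w => t * h w := by
    intro t ht
    by_contra hcon
    push Not at hcon
    obtain ⟨s, hs, hs0⟩ := intermediate_value_Icc' ht.1 hc.continuousOn
      (show (0 : ℝ) ∈ Set.Icc _ _ from ⟨hcon, by simp [Phi_zero]⟩)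
    exact Phi_ne_zero C A (abs_scale hh hs.1 (hs.2.trans_lt ht.2)) hs0
  have ht : Tendsto (fun n : ℕ => Phi C A fun w => (1 - 1 / ((n : ℝ) + 1)) * h w) atTop
      (𝓝 (Phi C A h)) := by
    have h1 : Tendsto (fun n : ℕ => 1 - 1 / ((n : ℝ) + 1)) atTop (𝓝 1) := by
      simpa using (tendsto_one_div_add_atTop_nhds_zero_nat (𝕜 := ℝ)).const_sub 1
    simpa [Function.comp_def] using (hc.tendsto 1).comp h1
  refine ge_of_tendsto ht (Eventually.of_forall fun n => (key _ ⟨?_, ?_⟩).le)
  · have : 1 / ((n : ℝ) + 1) ≤ 1 := by rw [div_le_one (by positivity)]; simp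
    linarith
  · have : 0 < 1 / ((n : ℝ) + 1) := by positivity
    linarith

lemma Phi_pos (A : Finset S) {h : S → ℝ} (hh : ∀ a ∈ A, |h a| < 1) : 0 < Phi C A h :=
  (Phi_nonneg C A fun a ha => (hh a ha).le).lt_of_ne (Phi_ne_zero C A hh).symm

lemma qw_nonneg (A : Finset S) (η : A → Bool) : 0 ≤ qw C A η :=
  mul_nonneg (by positivity) (Phi_nonneg C A fun a _ => (abs_spin _).le)

lemma Ev_one (A : Finset S) : Ev C A (fun _ => 1) = 1 := by
  have := Ev_prod C A (fun _ => 0)
  simpa [Phi_zero] using this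

lemma Ev_mono (A : Finset S) {f g : (S → Bool) → ℝ} (h : ∀ η, f η ≤ g η) : Ev C A f ≤ Ev C A g :=
  Finset.sum_le_sum fun η _ => mul_le_mul_of_nonneg_left (h _) (qw_nonneg C A η)

lemma Ev_const (A : Finset S) (c : ℝ) : Ev C A (fun _ => c) = c := by
  have := Ev_one C A
  simp only [Ev, ← Finset.sum_mul] at this ⊢
  rw [mul_one] at this
  rw [this, one_mul]

lemma Ev_le_const (A : Finset S) {f : (S → Bool) → ℝ} {c : ℝ} (h : ∀ η, f η ≤ c) :
    Ev C A f ≤ c := (Ev_mono C A h).trans_eq (Ev_const C A c)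

lemma abs_Ev_le (A : Finset S) (f : (S → Bool) → ℝ) : |Ev C A f| ≤ Ev C A fun η => |f η| :=
  (Finset.abs_sum_le_sum_abs _ _).trans_eq (Finset.sum_congr rfl fun η _ => by
    rw [abs_mul, abs_of_nonneg (qw_nonneg C A η)])

lemma Ev_add (A : Finset S) (f g : (S → Bool) → ℝ) :
    Ev C A (fun η => f η + g η) = Ev C A f + Ev C A g := by
  simp [Ev, mul_add, Finset.sum_add_distrib]

lemma Ev_const_mul (A : Finset S) (c : ℝ) (f : (S → Bool) → ℝ) :
    Ev C A (fun η => c * f η) = c * Ev C A f := by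
  simp only [Ev, Finset.mul_sum]
  exact Finset.sum_congr rfl fun η _ => by ring

lemma Ev_congr (A : Finset S) {f g : (S → Bool) → ℝ} (h : ∀ η, f η = g η) : Ev C A f = Ev C A g := by
  simp only [Ev, h]

/-- Windows are consistent. -/
lemma Phi_mono_set {A B : Finset S} (hBA : B ⊆ A) {h : S → ℝ}
    (h0 : ∀ a ∈ A, a ∉ B → h a = 0) : Phi C A h = Phi C B h := by
  classical
  set X : Matrix A B ℝ := Matrix.of fun a b => if (a : S) = b then h a else 0
  set Y : Matrix B A ℝ := Matrix.of fun b a => C.ent b a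
  have e1 : mmat C A h = 1 + X * Y := by
    ext a a'
    simp only [mmat, Matrix.of_apply, Matrix.add_apply, Matrix.mul_apply, X, Y, ite_mul, zero_mul]
    congr 1
    by_cases ha : (a : S) ∈ B
    · rw [Finset.sum_eq_single (⟨a, ha⟩ : B) (fun b _ hb => if_neg fun e => hb (Subtype.ext e.symm))
        (by simp), if_pos rfl]
    · rw [h0 a a.2 ha, zero_mul]
      exact (Finset.sum_eq_zero fun b _ => by simp).symm
  have e2 : Y * X = cmat C B * Matrix.diagonal fun b : B => h b := by
    ext b b'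
    rw [Matrix.mul_diagonal, Matrix.mul_apply, Finset.sum_eq_single (⟨b', hBA b'.2⟩ : A)]
    · simp [X, Y, cmat]
    · intro a _ ha
      simp [X, show (a : S) ≠ b' from fun e => ha (Subtype.ext e)]
    · simp
  rw [Phi, Phi, e1, Matrix.det_one_add_mul_comm, e2, Matrix.det_one_add_mul_comm, ← mmat_eq]

lemma Ev_mono_set {A B : Finset S} (hBA : B ⊆ A) (f : (S → Bool) → ℝ)
    (hf : ∀ η η' : S → Bool, (∀ b ∈ B, η b = η' b) → f η = f η') :
    Ev C A f = Ev C B f := by
  classical
  set hh : (B → Bool) → S → ℝ := fun ξ w => if w ∈ B then spin (ext' B ξ w) else 0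
  have ind : ∀ η : S → Bool, f η = ∑ ξ : B → Bool,
      f (ext' B ξ) * ((1 / 2) ^ B.card * ∏ w ∈ A, (1 + spin (η w) * hh ξ w)) := by
    intro η
    have hprod : ∀ ξ : B → Bool, ∏ w ∈ A, (1 + spin (η w) * hh ξ w) =
        ∏ b : B, (1 + spin (η b) * spin (ξ b)) := fun ξ => by
      rw [← Finset.prod_subset hBA (fun w _ hw => by simp [hh, hw]), ← Finset.prod_coe_sort B]
      exact Finset.prod_congr rfl fun b _ => by simp [hh, ext'_mem]
    rw [Finset.sum_eq_single fun b : B => η b]
    · have : ∏ b : B, (1 + spin (η b) * spin (η b)) = (2 : ℝ) ^ B.card := by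
        simp only [spin_mul_self]; norm_num
      rw [hprod, this, ← mul_pow]
      norm_num
      exact hf _ _ fun b hb => by simp [ext', hb]
    · intro ξ _ hξ
      obtain ⟨b, hb⟩ := Function.ne_iff.mp hξ
      rw [hprod, Finset.prod_eq_zero (Finset.mem_univ b) (by
        revert hb; cases η b <;> cases ξ b <;> simp [spin]), mul_zero, mul_zero]
    · simp
  rw [Ev_congr C A ind, Ev]
  simp only [Finset.mul_sum]
  rw [Finset.sum_comm, Ev]
  refine Finset.sum_congr rfl fun ξ _ => ?_
  have e := Ev_prod C A (hh ξ)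
  unfold Ev at e
  rw [Phi_mono_set C hBA (fun a _ ha => by simp [hh, ha]),
    Phi_congr C B (h' := fun w => spin (ext' B ξ w)) (fun b hb => by simp [hh, hb])] at e
  rw [qw, ← e, Finset.mul_sum, Finset.sum_mul]
  exact Finset.sum_congr rfl fun η _ => by ring

/-- The tilted mean is the mean of the tilted finite measure. -/
lemma Ev_prod_spin {A : Finset S} {η : ℝ} {h : S → ℝ} (a : Adm η h)
    (hA : ∀ w, w ∉ A → h w = 0) {v : S} (hv : v ∈ A) :
    Ev C A (fun σ => (∏ w ∈ A, (1 + spin (σ w) * h w)) * spin (σ v)) =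
      mean C h v * Phi C A h := by
  classical
  set h0 := Function.update h v 0
  set h1 := Function.update h v 1
  have hX : ∀ σ : S → Bool, ∀ c : ℝ, ∏ w ∈ A, (1 + spin (σ w) * Function.update h v c w) =
      (1 + spin (σ v) * c) * ∏ w ∈ A.erase v, (1 + spin (σ w) * h w) := fun σ c => by
    rw [← Finset.mul_prod_erase A _ hv, Function.update_self]
    congr 1
    exact Finset.prod_congr rfl fun w hw => by
      rw [Function.update_of_ne (Finset.ne_of_mem_erase hw)]
  have hXh : ∀ σ : S → Bool, ∏ w ∈ A, (1 + spin (σ w) * h w) =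
      (1 + spin (σ v) * h v) * ∏ w ∈ A.erase v, (1 + spin (σ w) * h w) :=
    fun σ => (Finset.mul_prod_erase A _ hv).symm
  have hΦ : Phi C A h = Phi C A h0 + h v * (Phi C A h1 - Phi C A h0) := by
    rw [← Ev_prod C A h, ← Ev_prod C A h0, ← Ev_prod C A h1, Ev_congr C A fun σ => show
      ∏ w ∈ A, (1 + spin (σ w) * h w) = (1 - h v) * ∏ w ∈ A, (1 + spin (σ w) * h0 w) +
        h v * ∏ w ∈ A, (1 + spin (σ w) * h1 w) by rw [hX, hX, hXh]; ring,
      Ev_add, Ev_const_mul, Ev_const_mul]
    ring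
  have hN : Ev C A (fun σ => (∏ w ∈ A, (1 + spin (σ w) * h w)) * spin (σ v)) =
      h v * Phi C A h0 + (Phi C A h1 - Phi C A h0) := by
    rw [← Ev_prod C A h0, ← Ev_prod C A h1, Ev_congr C A fun σ => show
      (∏ w ∈ A, (1 + spin (σ w) * h w)) * spin (σ v) =
        (h v - 1) * ∏ w ∈ A, (1 + spin (σ w) * h0 w) + ∏ w ∈ A, (1 + spin (σ w) * h1 w) by
        rw [hX, hX, hXh]
        linear_combination (h v * ∏ w ∈ A.erase v, (1 + spin (σ w) * h w)) * spin_mul_self (σ v),
      Ev_add, Ev_const_mul]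
    ring
  set M := mmat C A h
  set z : A → ℝ := fun w => zvec C h v w
  set b : A → ℝ := fun w => C.ent v w
  have hMz : M *ᵥ z = Pi.single (⟨v, hv⟩ : A) 1 := by
    funext w
    have := zvec_coord (C := C) a v w
    rw [op_zvec_eq_sum a hA hv, ← Finset.sum_coe_sort A] at this
    simp only [M, mmat, Matrix.mulVec, dotProduct, Matrix.of_apply, add_mul,
      Finset.sum_add_distrib, Matrix.one_apply, ite_mul, one_mul, zero_mul, Finset.sum_ite_eq,
      Finset.mem_univ, if_true, z, mul_assoc, ← Finset.mul_sum]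
    rw [this]
    by_cases hw : w = ⟨v, hv⟩
    · subst hw; rw [Pi.single_eq_same, bas_self]
    · rw [Pi.single_eq_of_ne hw, bas_ne fun e => hw (Subtype.ext e)]
  have hupd : Phi C A h1 - Phi C A h0 = (M.updateRow ⟨v, hv⟩ b).det := by
    have r0 : mmat C A h0 = M.updateRow ⟨v, hv⟩ (fun c => (1 : Matrix A A ℝ) ⟨v, hv⟩ c) := by
      ext w c
      by_cases hw : w = ⟨v, hv⟩
      · subst hw; simp [mmat, h0]
      · simp [mmat, h0, M, hw, Function.update_of_ne (fun e : (w : S) = v => hw (Subtype.ext e))]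
    have r1 : mmat C A h1 =
        M.updateRow ⟨v, hv⟩ ((fun c => (1 : Matrix A A ℝ) ⟨v, hv⟩ c) + b) := by
      ext w c
      by_cases hw : w = ⟨v, hv⟩
      · subst hw; simp [mmat, h1, b]
      · simp [mmat, h1, M, hw, Function.update_of_ne (fun e : (w : S) = v => hw (Subtype.ext e))]
    rw [Phi, Phi, r0, r1, Matrix.det_updateRow_add]
    ring
  have hR : rvec C h v v * Phi C A h = (M.updateRow ⟨v, hv⟩ b).det := by
    have hz : Phi C A h • z = M.adjugate *ᵥ Pi.single (⟨v, hv⟩ : A) 1 := by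
      rw [← hMz, Matrix.mulVec_mulVec, Matrix.adjugate_mul, Matrix.smul_mulVec,
        Matrix.one_mulVec, Phi]
    rw [← Matrix.cramer_transpose_apply, Matrix.cramer_eq_adjugate_mulVec,
      ← Matrix.adjugate_transpose, op_zvec_eq_sum a hA hv, ← Finset.sum_coe_sort A, Finset.sum_mul]
    simp only [Matrix.mulVec, dotProduct, Matrix.transpose_apply]
    refine Finset.sum_congr rfl fun w _ => ?_
    have := congrFun hz w
    rw [Pi.smul_apply, Matrix.mulVec_single_one] at this
    simp only [smul_eq_mul, Matrix.col_apply, z] at this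
    rw [mul_assoc, mul_comm (zvec C h v w), this, mul_comm]
  rw [hN, mean, hupd, add_mul, mul_assoc, hR]
  nth_rw 1 [show Phi C A h0 = Phi C A h - h v * (Phi C A h1 - Phi C A h0) by linarith]
  rw [hupd]
  ring

end Vale.Agent.P143
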