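import Mathlib

/-!
# The generating function of spanning trees as a determinant
-/

open Matrix Filter Topology

namespace Vale.Agent.P143

variable {W ι : Type*} [Fintype W] [DecidableEq W] [Fintype ι] [DecidableEq ι]

/-- The chosen edges as a graph. -/
def gr (tl hd : ι → W) (F : Finset ι) : SimpleGraph W :=
  SimpleGraph.fromRel fun a b => ∃ i ∈ F, tl i = a ∧ hd i = b

/-- The incidence matrix with the row of the root left out. -/
def inc (R : Type*) [CommRing R] (tl hd : ι → W) (r : W) : Matrix {x // x ≠ r} ι R :=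
  Matrix.of fun x i => (if tl i = x then 1 else 0) - (if hd i = x then 1 else 0)

open Classical in
/-- The edge sets of spanning trees. -/
noncomputable def treeSets (tl hd : ι → W) : Finset (Finset ι) :=
  Finset.univ.filter fun F => (gr tl hd F).IsTree

variable (tl hd : ι → W) (r : W)
  (hne : ∀ i, tl i ≠ hd i) (hinj : Function.Injective fun i => s(tl i, hd i))

omit [Fintype W] [DecidableEq W] [Fintype ι] in
include hne in
lemma edgeSet_gr (F : Finset ι) :
    (gr tl hd F).edgeSet = (fun i => s(tl i, hd i)) '' (F : Set ι) := by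
  ext e
  induction e using Sym2.ind with
  | _ a b =>
    simp only [gr, SimpleGraph.mem_edgeSet, SimpleGraph.fromRel_adj, Set.mem_image,
      Finset.mem_coe, Sym2.eq_iff]
    constructor
    · rintro ⟨-, ⟨i, hi, rfl, rfl⟩ | ⟨i, hi, rfl, rfl⟩⟩
      · exact ⟨i, hi, Or.inl ⟨rfl, rfl⟩⟩
      · exact ⟨i, hi, Or.inr ⟨rfl, rfl⟩⟩
    · rintro ⟨i, hi, ⟨rfl, rfl⟩ | ⟨rfl, rfl⟩⟩
      · exact ⟨hne i, Or.inl ⟨i, hi, rfl, rfl⟩⟩
      · exact ⟨(hne i).symm, Or.inr ⟨i, hi, rfl, rfl⟩⟩

omit [DecidableEq W] [Fintype ι] in
include hne hinj in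
lemma card_edgeSet_gr (F : Finset ι) : Nat.card (gr tl hd F).edgeSet = F.card := by
  rw [edgeSet_gr tl hd hne, Nat.card_image_of_injective hinj, Nat.card_eq_fintype_card]
  simp

omit [Fintype ι] in
include hne hinj in
lemma isTree_gr_iff (F : Finset ι) :
    (gr tl hd F).IsTree ↔
      (gr tl hd F).Connected ∧ F.card = Fintype.card {x // x ≠ r} := by
  rw [SimpleGraph.isTree_iff_connected_and_card, card_edgeSet_gr tl hd hne hinj,
    Nat.card_eq_fintype_card, Fintype.card_subtype_compl, Fintype.card_subtype_eq]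
  have : 0 < Fintype.card W := Fintype.card_pos_iff.mpr ⟨r⟩
  refine and_congr_right fun _ => ?_
  omega

omit [Fintype ι] [DecidableEq ι] in
lemma inc_cast :
    inc ℝ tl hd r = (inc ℤ tl hd r).map (Int.castRingHom ℝ) := by
  ext x i
  simp [inc]

omit [Fintype ι] in
include hne in
/-- A connected set of `|W| - 1` edges has unimodular incidence matrix. -/
lemma det_sq_of_connected (F : Finset ι) (e : {x // x ≠ r} ≃ F)
    (hc : (gr tl hd F).Connected) :
    ((inc ℝ tl hd r).submatrix id fun x => (e x : ι)).det ^ 2 = 1 := by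
  set M : Matrix {x // x ≠ r} {x // x ≠ r} ℤ := (inc ℤ tl hd r).submatrix id fun x => (e x : ι)
  set dl : W → {x // x ≠ r} → ℤ := fun x y => if x = y then 1 else 0
  have hcol : ∀ i ∈ F, dl (tl i) - dl (hd i) ∈ LinearMap.range M.mulVecLin := fun i hi => by
    refine ⟨Pi.single (e.symm ⟨i, hi⟩) 1, ?_⟩
    funext y
    simp [M, dl, inc, Matrix.mulVec_single_one]
  have hall : ∀ x, dl x ∈ LinearMap.range M.mulVecLin := by
    have step : ∀ a b : W, (gr tl hd F).Adj a b → dl a ∈ LinearMap.range M.mulVecLin →
        dl b ∈ LinearMap.range M.mulVecLin := by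
      intro a b hab ha
      simp only [gr, SimpleGraph.fromRel_adj] at hab
      rcases hab.2 with ⟨i, hi, rfl, rfl⟩ | ⟨i, hi, rfl, rfl⟩
      · simpa using Submodule.sub_mem _ ha (hcol i hi)
      · simpa using Submodule.add_mem _ (hcol i hi) ha
    intro x
    obtain ⟨p⟩ := hc.preconnected r x
    have hr : dl r ∈ LinearMap.range M.mulVecLin := by
      have : dl r = 0 := funext fun y => if_neg fun h => y.2 h.symm
      rw [this]; exact Submodule.zero_mem _
    have gen : ∀ a b, (gr tl hd F).Walk a b → dl a ∈ LinearMap.range M.mulVecLin →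
        dl b ∈ LinearMap.range M.mulVecLin := by
      intro a b q
      induction q with
      | nil => exact id
      | cons h _ ih => exact fun ha => ih (step _ _ h ha)
    exact gen r x p hr
  choose z hz using fun y : {x // x ≠ r} => hall y
  have hR : M * (Matrix.of fun a y => z y a) = 1 := by
    ext a y
    have := congrFun (hz y) a
    simp only [Matrix.mulVecLin_apply, Matrix.mulVec, dotProduct] at this
    rw [Matrix.mul_apply, Matrix.one_apply]
    simp only [Matrix.of_apply, this, dl]
    simp [Subtype.ext_iff, eq_comm]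
  have hd1 := congrArg Matrix.det hR
  rw [Matrix.det_mul, Matrix.det_one] at hd1
  have : M.det ^ 2 = 1 := by
    rcases Int.eq_one_or_neg_one_of_mul_eq_one hd1 with h | h <;> simp [h]
  rw [inc_cast, Matrix.submatrix_map, show ((inc ℤ tl hd r).submatrix id fun x => (e x : ι)) = M from rfl,
    ← RingHom.mapMatrix_apply, ← RingHom.map_det, ← map_pow, this, map_one]

omit [Fintype ι] in
lemma det_eq_zero_of_not_connected (F : Finset ι) (e : {x // x ≠ r} ≃ F)
    (hc : ¬ (gr tl hd F).Connected) :
    ((inc ℝ tl hd r).submatrix id fun x => (e x : ι)).det = 0 := by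
  classical
  obtain ⟨x, hx⟩ : ∃ x, ¬ (gr tl hd F).Reachable r x := by
    by_contra hh
    push Not at hh
    exact hc (@SimpleGraph.Connected.mk _ _ (fun a b => (hh a).symm.trans (hh b)) ⟨r⟩)
  rw [← Matrix.exists_vecMul_eq_zero_iff]
  refine ⟨fun y => if (gr tl hd F).Reachable r y then 0 else 1, fun h0 => ?_, funext fun z => ?_⟩
  · have := congrFun h0 ⟨x, fun h => hx (h ▸ SimpleGraph.Reachable.refl _)⟩
    simp [hx] at this
  · have hi := (e z).2
    set i : ι := (e z : ι)
    have same : (gr tl hd F).Reachable r (tl i) ↔ (gr tl hd F).Reachable r (hd i) := by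
      by_cases h : tl i = hd i
      · rw [h]
      · have a : (gr tl hd F).Adj (tl i) (hd i) := by
          simp only [gr, SimpleGraph.fromRel_adj]
          exact ⟨h, Or.inl ⟨i, hi, rfl, rfl⟩⟩
        exact ⟨fun k => k.trans a.reachable, fun k => k.trans a.symm.reachable⟩
    have key : ∀ w : W, (∑ y : {x // x ≠ r},
        (if (gr tl hd F).Reachable r y then (0 : ℝ) else 1) * (if w = y then 1 else 0)) =
        if (gr tl hd F).Reachable r w then 0 else 1 := by
      intro w
      by_cases hw : w = r
      · subst hw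
        rw [if_pos (SimpleGraph.Reachable.refl _)]
        exact Finset.sum_eq_zero fun y _ => by simp [Ne.symm y.2]
      · rw [Finset.sum_eq_single ⟨w, hw⟩ (fun y _ hy => by
          simp [show w ≠ (y : W) from fun h => hy (Subtype.ext h.symm)]) (by simp)]
        simp
    simp only [Matrix.vecMul, dotProduct, Matrix.submatrix_apply, id_eq, inc, Matrix.of_apply,
      mul_sub, Finset.sum_sub_distrib, Pi.zero_apply]
    rw [key, key, sub_eq_zero]
    exact if_congr same rfl rfl

/-- The weighted reduced Laplacian. -/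
noncomputable def lap (w : ι → ℝ) : Matrix {x // x ≠ r} {x // x ≠ r} ℝ :=
  inc ℝ tl hd r * Matrix.diagonal w * (inc ℝ tl hd r)ᵀ

include hne hinj in
/-- The weighted matrix tree theorem. -/
theorem det_lap (w : ι → ℝ) :
    (lap tl hd r w).det = ∑ F ∈ treeSets tl hd, ∏ i ∈ F, w i := by
  classical
  set B := inc ℝ tl hd r
  set n := Fintype.card {x // x ≠ r}
  set T : ({x // x ≠ r} → ι) → ℝ := fun φ =>
    (∏ x, B x (φ x)) * (Matrix.of fun x y => B y (φ x)).det
  have T0 : ∀ φ, ¬ Function.Injective φ → T φ = 0 := fun φ hφ => by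
    simp only [Function.Injective, not_forall] at hφ
    obtain ⟨a, b, hab, hne'⟩ := hφ
    have : (Matrix.of fun x y => B y (φ x)).det = 0 :=
      Matrix.det_zero_of_row_eq hne' (by ext y; simp [hab])
    simp [T, this]
  set c : Finset ι → ℝ := fun F =>
    ∑ φ ∈ Finset.univ.filter (fun φ : {x // x ≠ r} → ι => Finset.univ.image φ = F), T φ
  have hexp : ∀ w : ι → ℝ, (lap tl hd r w).det = ∑ F : Finset ι, (∏ i ∈ F, w i) * c F := by
    intro w
    have e := (Matrix.detRowAlternating (n := {x // x ≠ r}) (R := ℝ)).toMultilinearMap.map_sum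
      (fun x i => (B x i * w i) • fun y => B y i)
    have hs : (fun x => ∑ i, (B x i * w i) • fun y => B y i) = fun x => lap tl hd r w x := by
      funext x y
      simp [lap, B, Matrix.mul_apply, Matrix.diagonal, Finset.sum_apply]
    rw [hs] at e
    refine e.trans ?_
    rw [← Finset.sum_fiberwise Finset.univ (fun φ : {x // x ≠ r} → ι => Finset.univ.image φ)]
    refine Finset.sum_congr rfl fun F _ => ?_
    rw [Finset.mul_sum]
    refine Finset.sum_congr rfl fun φ hφ => ?_
    have hd' : (Matrix.detRowAlternating (n := {x // x ≠ r}) (R := ℝ)).toMultilinearMap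
        (fun x => (B x (φ x) * w (φ x)) • fun y => B y (φ x)) =
        (∏ x, w (φ x)) * T φ := by
      show Matrix.det (Matrix.of fun x y => (B x (φ x) * w (φ x)) * B y (φ x)) = _
      rw [show (Matrix.of fun x y => (B x (φ x) * w (φ x)) * B y (φ x)) =
          Matrix.of fun x y => (B x (φ x) * w (φ x)) * (Matrix.of fun x y => B y (φ x)) x y from rfl,
        Matrix.det_mul_column, Finset.prod_mul_distrib]
      ring
    rw [hd']
    by_cases hinjφ : Function.Injective φ
    · rw [← (Finset.mem_filter.mp hφ).2, Finset.prod_image fun a _ b _ h => hinjφ h]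
    · rw [T0 φ hinjφ, mul_zero, mul_zero]
  have hc0 : ∀ F : Finset ι, F.card ≠ n → c F = 0 := fun F hF =>
    Finset.sum_eq_zero fun φ hφ => T0 φ fun h => hF (by
      rw [← (Finset.mem_filter.mp hφ).2, Finset.card_image_of_injective _ h, Finset.card_univ])
  have hc1 : ∀ F : Finset ι, F.card = n → c F = if (gr tl hd F).Connected then 1 else 0 := by
    intro F hF
    have h1 : (lap tl hd r fun i => if i ∈ F then 1 else 0).det = c F := by
      rw [hexp, Finset.sum_eq_single F]
      · rw [Finset.prod_eq_one fun i hi => if_pos hi, one_mul]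
      · intro F' _ hne'
        by_cases hcard : F'.card = n
        · obtain ⟨i, hi, hiF⟩ : ∃ i ∈ F', i ∉ F := by
            by_contra hh
            push Not at hh
            exact hne' (Finset.eq_of_subset_of_card_le hh (by rw [hF, hcard]))
          rw [Finset.prod_eq_zero hi (if_neg hiF), zero_mul]
        · rw [hc0 F' hcard, mul_zero]
      · simp
    let e : {x // x ≠ r} ≃ F := Fintype.equivOfCardEq (by rw [Fintype.card_coe, hF])
    set M := B.submatrix id fun x => (e x : ι)
    have h2 : (lap tl hd r fun i => if i ∈ F then 1 else 0) = M * Mᵀ := by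
      ext x y
      simp only [lap, M, B, Matrix.mul_apply, Matrix.transpose_apply, Matrix.submatrix_apply, id_eq,
        Matrix.diagonal, Matrix.of_apply, mul_ite, mul_one, mul_zero, Finset.sum_ite_eq',
        Finset.mem_univ, if_true, ite_mul, zero_mul]
      rw [← Finset.sum_filter, Finset.filter_mem_eq_inter, Finset.univ_inter,
        ← Finset.sum_coe_sort F]
      exact (Equiv.sum_comp e _).symm
    rw [← h1, h2, Matrix.det_mul, Matrix.det_transpose, ← pow_two]
    split_ifs with hcn
    · exact det_sq_of_connected tl hd r hne F e hcn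
    · rw [det_eq_zero_of_not_connected tl hd r F e hcn]; simp
  rw [hexp, treeSets, Finset.sum_filter]
  refine Finset.sum_congr rfl fun F _ => ?_
  have hiff := isTree_gr_iff tl hd r hne hinj F
  by_cases hF : F.card = n
  · rw [hc1 F hF]
    by_cases hc : (gr tl hd F).Connected <;> simp [hiff, hc, hF, n] at *
  · rw [hc0 F hF, mul_zero, if_neg fun h => hF (hiff.mp h).2]

include hne hinj in
lemma treeSets_nonempty (hc : (gr tl hd Finset.univ).Connected) :
    (treeSets tl hd).Nonempty := by
  classical
  obtain ⟨T, hT, hTree⟩ := hc.exists_isTree_le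
  refine ⟨Finset.univ.filter fun i => s(tl i, hd i) ∈ T.edgeSet, ?_⟩
  have : gr tl hd (Finset.univ.filter fun i => s(tl i, hd i) ∈ T.edgeSet) = T := by
    ext a b
    constructor
    · intro h
      simp only [gr, SimpleGraph.fromRel_adj, Finset.mem_filter, SimpleGraph.mem_edgeSet] at h
      rcases h.2 with ⟨i, hi, rfl, rfl⟩ | ⟨i, hi, rfl, rfl⟩
      · exact hi.2
      · exact hi.2.symm
    · intro h
      have h' := hT h
      simp only [gr, SimpleGraph.fromRel_adj, Finset.mem_filter, SimpleGraph.mem_edgeSet] at h' ⊢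
      refine ⟨h'.1, ?_⟩
      rcases h'.2 with ⟨i, -, rfl, rfl⟩ | ⟨i, -, rfl, rfl⟩
      · exact Or.inl ⟨i, ⟨Finset.mem_univ _, h⟩, rfl, rfl⟩
      · exact Or.inr ⟨i, ⟨Finset.mem_univ _, h.symm⟩, rfl, rfl⟩
  simp only [treeSets, Finset.mem_filter, Finset.mem_univ, true_and]
  rw [this]
  exact hTree

/-- The transfer current matrix. -/
noncomputable def current : Matrix ι ι ℝ :=
  (inc ℝ tl hd r)ᵀ * (lap tl hd r 1)⁻¹ * inc ℝ tl hd r

variable (hc : (gr tl hd Finset.univ).Connected)

include hne hinj hc in
lemma det_lap_one_ne : (lap tl hd r 1).det ≠ 0 := by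
  rw [det_lap tl hd r hne hinj]
  simp only [Pi.one_apply, Finset.prod_const_one, Finset.sum_const, nsmul_eq_mul, mul_one]
  exact Nat.cast_ne_zero.mpr (Finset.card_pos.mpr (treeSets_nonempty tl hd hne hinj hc)).ne'

include hne hinj hc in
lemma inc_mul_current : inc ℝ tl hd r * current tl hd r = inc ℝ tl hd r := by
  have e : inc ℝ tl hd r * (inc ℝ tl hd r)ᵀ = lap tl hd r 1 := by
    simp [lap]
  rw [current, ← Matrix.mul_assoc, ← Matrix.mul_assoc, e,
    Matrix.mul_nonsing_inv _ (Ne.isUnit (det_lap_one_ne tl hd r hne hinj hc)), Matrix.one_mul]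

include hne hinj hc in
/-- The transfer current theorem, with tilts. -/
lemma det_current {h : ι → ℝ} (hh : ∀ i, |h i| < 1) :
    (treeSets tl hd).card * (1 + Matrix.diagonal h * ((2 : ℝ) • current tl hd r - 1)).det =
      ∑ F ∈ treeSets tl hd, ∏ i, if i ∈ F then 1 + h i else 1 - h i := by
  classical
  have hp : ∀ i, 0 < 1 - h i := fun i => by linarith [(abs_lt.mp (hh i)).2]
  set d : ι → ℝ := fun i => 2 * h i / (1 - h i)
  set B := inc ℝ tl hd r
  set L := lap tl hd r 1
  have hL : IsUnit L.det := Ne.isUnit (det_lap_one_ne tl hd r hne hinj hc)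
  have split : 1 + Matrix.diagonal h * ((2 : ℝ) • current tl hd r - 1) =
      Matrix.diagonal (fun i => 1 - h i) * (1 + Matrix.diagonal d * current tl hd r) := by
    ext i j
    simp only [Matrix.add_apply, Matrix.diagonal_mul, Matrix.sub_apply, Matrix.smul_apply,
      smul_eq_mul, d]
    field_simp [(hp i).ne']
    ring
  have e1 : Matrix.diagonal d * current tl hd r = (Matrix.diagonal d * Bᵀ) * (L⁻¹ * B) := by
    simp only [current, Matrix.mul_assoc, B, L]
  have hw : lap tl hd r (1 + d) = L + B * Matrix.diagonal d * Bᵀ := by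
    have e : Matrix.diagonal (1 + d) = 1 + Matrix.diagonal d := by
      ext i j
      by_cases hij : i = j
      · subst hij; simp
      · simp [hij]
    simp [lap, L, B, e, Matrix.mul_add, Matrix.add_mul]
  have hcard : ((treeSets tl hd).card : ℝ) = L.det := by
    rw [det_lap tl hd r hne hinj]; simp
  have key : L.det * (1 + Matrix.diagonal d * current tl hd r).det = (lap tl hd r (1 + d)).det := by
    rw [e1, Matrix.det_one_add_mul_comm, ← Matrix.det_mul, Matrix.mul_add, Matrix.mul_one, hw]
    simp only [← Matrix.mul_assoc, Matrix.mul_nonsing_inv _ hL, Matrix.one_mul]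
  rw [split, Matrix.det_mul, Matrix.det_diagonal, hcard, mul_left_comm, key,
    det_lap tl hd r hne hinj, Finset.mul_sum]
  refine Finset.sum_congr rfl fun F _ => ?_
  rw [Finset.prod_ite, ← Finset.prod_filter_mul_prod_filter_not Finset.univ (fun i => i ∈ F)
    (fun i => 1 - h i), show Finset.univ.filter (fun i => i ∈ F) = F from by ext; simp,
    mul_right_comm, ← Finset.prod_mul_distrib]
  congr 1
  refine Finset.prod_congr rfl fun i _ => ?_
  simp only [Pi.add_apply, Pi.one_apply, d]
  field_simp [(hp i).ne']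
  ring

end Vale.Agent.P143
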