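import Vale.Agent.P143.Slots
import Vale.Agent.P143.SpanTree

/-!
# Spanning trees of a finite subgraph as a determinantal law
-/

open Filter Topology Matrix
open scoped InnerProductSpace

namespace Vale.Agent.P143

open Vale.Agent.P161 (spin)

variable {V : Type*} [DecidableEq V] {G : SimpleGraph V} (H : G.Subgraph)
  [Fintype H.verts] [DecidableEq H.edgeSet] [Fintype H.edgeSet]

/-- Slots for the edges of a finite subgraph. -/
structure EdgeSlots (f : V × ℕ → Option V) (T : Finset (V × ℕ)) where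
  slot : H.edgeSet → V × ℕ
  far : H.edgeSet → V
  far_eq : ∀ i, f (slot i) = some (far i)
  edge_eq : ∀ i, s((slot i).1, far i) = (i : Sym2 V)
  mem : ∀ i, slot i ∈ T
  cover : ∀ s ∈ T, f s ≠ none → ∃ i, slot i = s

variable {H} {f : V × ℕ → Option V} {T : Finset (V × ℕ)} (E : EdgeSlots H f T)

namespace EdgeSlots

omit [DecidableEq V] [Fintype H.verts] [DecidableEq H.edgeSet] [Fintype H.edgeSet] in
lemma adj (i : H.edgeSet) : H.Adj (E.slot i).1 (E.far i) := by
  have := i.2
  rw [← E.edge_eq i] at this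
  exact this

/-- The near end. -/
def tl (i : H.edgeSet) : H.verts := ⟨(E.slot i).1, H.edge_vert (E.adj i)⟩

/-- The far end. -/
def hd (i : H.edgeSet) : H.verts := ⟨E.far i, H.edge_vert (E.adj i).symm⟩

omit [DecidableEq V] [Fintype H.verts] [DecidableEq H.edgeSet] [Fintype H.edgeSet] in
lemma slot_inj : Function.Injective E.slot := fun i j h => by
  apply Subtype.ext
  rw [← E.edge_eq i, ← E.edge_eq j]
  have := E.far_eq i
  rw [h, E.far_eq j] at this
  rw [h, Option.some.inj this]

omit [DecidableEq V] [Fintype H.verts] [DecidableEq H.edgeSet] [Fintype H.edgeSet] in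
lemma ne (i : H.edgeSet) : E.tl i ≠ E.hd i := fun h =>
  (E.adj i).ne (congrArg Subtype.val h)

omit [DecidableEq V] [Fintype H.verts] [DecidableEq H.edgeSet] [Fintype H.edgeSet] in
lemma inj : Function.Injective fun i => s(E.tl i, E.hd i) := fun i j h => by
  apply Subtype.ext
  have := congrArg (Sym2.map Subtype.val) h
  simp only [Sym2.map_mk, tl, hd] at this
  rw [← E.edge_eq i, ← E.edge_eq j]
  exact this

omit [DecidableEq V] [Fintype H.verts] [DecidableEq H.edgeSet] [Fintype H.edgeSet] in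
lemma gr_adj (F : Finset H.edgeSet) (a b : H.verts) :
    (gr E.tl E.hd F).Adj a b ↔ ∃ i ∈ F, (i : Sym2 V) = s((a : V), (b : V)) := by
  simp only [gr, SimpleGraph.fromRel_adj]
  constructor
  · rintro ⟨-, ⟨i, hi, rfl, rfl⟩ | ⟨i, hi, rfl, rfl⟩⟩
    · exact ⟨i, hi, (E.edge_eq i).symm⟩
    · exact ⟨i, hi, (E.edge_eq i).symm.trans Sym2.eq_swap⟩
  · rintro ⟨i, hi, h⟩
    rw [← E.edge_eq i] at h
    rcases Sym2.eq_iff.mp h with ⟨h1, h2⟩ | ⟨h1, h2⟩
    · exact ⟨fun e => (E.adj i).ne (by rw [h1, h2, e]), Or.inl ⟨i, hi, Subtype.ext h1, Subtype.ext h2⟩⟩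
    · exact ⟨fun e => (E.adj i).ne (by rw [h1, h2, e]), Or.inr ⟨i, hi, Subtype.ext h1, Subtype.ext h2⟩⟩

omit [DecidableEq V] [Fintype H.verts] in
lemma connected_univ (hc : H.Connected) : (gr E.tl E.hd Finset.univ).Connected := by
  have : gr E.tl E.hd Finset.univ = H.coe := by
    ext a b
    rw [E.gr_adj]
    exact ⟨fun ⟨i, _, h⟩ => by have := i.2; rw [h] at this; exact this,
      fun h => ⟨⟨_, h⟩, Finset.mem_univ _, rfl⟩⟩
  rw [this]
  exact hc.coe

lemma bd_eq (i : H.edgeSet) (y : H.verts) (r : H.verts) (hy : y ≠ r) :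
    bd (E.slot i) (f (E.slot i)) y = inc ℝ E.tl E.hd r ⟨y, hy⟩ i := by
  simp [bd, inc, E.far_eq, tl, hd, Subtype.ext_iff]

omit [DecidableEq H.edgeSet] [Fintype H.verts] in
lemma sum_T (g : V × ℕ → ℝ) (hg : ∀ s ∈ T, f s = none → g s = 0) :
    ∑ s ∈ T, g s = ∑ i, g (E.slot i) := by
  classical
  rw [← Finset.sum_image (s := Finset.univ) fun a _ b _ h => E.slot_inj h]
  refine (Finset.sum_subset (fun s hs => ?_) fun s hs hns => hg s hs ?_).symm
  · obtain ⟨i, -, rfl⟩ := Finset.mem_image.mp hs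
    exact E.mem i
  · by_contra h
    obtain ⟨i, rfl⟩ := E.cover s hs h
    exact hns (Finset.mem_image_of_mem _ (Finset.mem_univ i))

lemma pfin_eq (hc : H.Connected) (r : H.verts) (i j : H.edgeSet) :
    pfin f T (E.slot i) (E.slot j) =
      (1 : Matrix H.edgeSet H.edgeSet ℝ) i j - current E.tl E.hd r i j := by
  classical
  set Q := current E.tl E.hd r with hQ
  set g : H.edgeSet → ℝ := fun i => (1 : Matrix H.edgeSet H.edgeSet ℝ) i j - Q i j
  set x : V × ℕ → ℝ := Function.extend E.slot g 0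
  have hx : ∀ i, x (E.slot i) = g i := E.slot_inj.extend_apply g 0
  have hx0 : ∀ s, (¬ ∃ i, E.slot i = s) → x s = 0 := fun s hs =>
    Function.extend_apply' g (0 : V × ℕ → ℝ) s hs
  have hrow : ∀ y : {y // y ≠ r}, ∑ i, g i * inc ℝ E.tl E.hd r y i = 0 := fun y => by
    have := congrFun (congrFun (inc_mul_current E.tl E.hd r E.ne E.inj (E.connected_univ hc)) y) j
    simp only [Matrix.mul_apply] at this
    simp only [g, sub_mul, Finset.sum_sub_distrib, Matrix.one_apply, ite_mul, one_mul, zero_mul,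
      Finset.sum_ite_eq', Finset.mem_univ, if_true]
    rw [show ∑ i, Q i j * inc ℝ E.tl E.hd r y i = inc ℝ E.tl E.hd r y j from
      (Finset.sum_congr rfl fun i _ => mul_comm _ _).trans this, sub_self]
  have hmem : vecOf T x ∈ cyc f T := by
    refine ⟨fun s hs => ?_, fun y => ?_⟩
    · rw [vecOf_apply]
      split_ifs with h
      · refine hx0 s ?_
        rintro ⟨i, rfl⟩
        rcases hs with hs | hs
        · exact hs h
        · rw [E.far_eq] at hs; simp at hs
      · rfl
    · rw [E.sum_T _ (fun s _ h => by simp [bd, h])]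
      simp only [vecOf_apply, if_pos (E.mem _), hx]
      by_cases hy : y ∈ H.verts
      · by_cases hyr : (⟨y, hy⟩ : H.verts) = r
        · subst hyr
          have tot : ∑ w : H.verts, ∑ i, g i * bd (E.slot i) (f (E.slot i)) w = 0 := by
            rw [Finset.sum_comm]
            refine Finset.sum_eq_zero fun i _ => ?_
            have e1 : ∀ v : H.verts, (∑ w : H.verts, if (v : V) = w then (1 : ℝ) else 0) = 1 :=
              fun v => by
                rw [Finset.sum_eq_single v (fun w _ hw => if_neg fun h => hw (Subtype.ext h.symm))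
                  (by simp), if_pos rfl]
            simp only [bd, E.far_eq, Option.elim_some, ← Finset.mul_sum, Finset.sum_sub_distrib]
            rw [show (∑ w : H.verts, if (E.slot i).1 = w then (1 : ℝ) else 0) = 1 from e1 (E.tl i),
              show (∑ w : H.verts, if E.far i = w then (1 : ℝ) else 0) = 1 from e1 (E.hd i)]
            simp
          rw [Finset.sum_eq_single (⟨y, hy⟩ : H.verts)] at tot
          · exact tot
          · intro w _ hw
            exact (Finset.sum_congr rfl fun i _ => by rw [E.bd_eq i w _ hw]).trans (hrow ⟨w, hw⟩)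
          · simp
        · exact (Finset.sum_congr rfl fun i _ => by rw [← E.bd_eq i ⟨y, hy⟩ r hyr]).trans
            (hrow ⟨⟨y, hy⟩, hyr⟩)
      · refine Finset.sum_eq_zero fun i _ => ?_
        simp [bd, E.far_eq, show (E.slot i).1 ≠ y from fun e => hy (e ▸ (E.tl i).2),
          show E.far i ≠ y from fun e => hy (e ▸ (E.hd i).2)]
  have key : (cyc f T).starProjection (bas (E.slot j)) = vecOf T x := by
    refine Submodule.eq_starProjection_of_mem_of_inner_eq_zero hmem fun w hw => ?_
    rw [inner_sub_left, inner_bas, inner_vecOf,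
      E.sum_T _ (fun s _ h => by rw [hw.1 s (Or.inr h), mul_zero])]
    simp only [hx, g, sub_mul, Finset.sum_sub_distrib, Matrix.one_apply, ite_mul, one_mul,
      zero_mul, Finset.sum_ite_eq', Finset.mem_univ, if_true, sub_sub_cancel]
    have hwB : (fun i => w (E.slot i)) ᵥ* (inc ℝ E.tl E.hd r)ᵀ = 0 := funext fun y => by
      have := hw.2 (y : H.verts)
      rw [E.sum_T _ (fun s _ h => by rw [hw.1 s (Or.inr h), zero_mul])] at this
      simp only [Matrix.vecMul, dotProduct, Matrix.transpose_apply, Pi.zero_apply]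
      exact (Finset.sum_congr rfl fun i _ => by rw [E.bd_eq i y r y.2]).trans this
    have : (fun i => w (E.slot i)) ᵥ* Q = 0 := by
      rw [hQ, current, ← Matrix.vecMul_vecMul, ← Matrix.vecMul_vecMul, hwB]
      simp
    exact (Finset.sum_congr rfl fun i _ => mul_comm _ _).trans (congrFun this j)
  rw [pfin, key, vecOf_apply, if_pos (E.mem i), hx]

/-- The tilted determinant of a finite subgraph counts spanning trees. -/
lemma card_mul_Phi (hc : H.Connected) {h : V × ℕ → ℝ} (hh : ∀ s, |h s| ≤ 1) :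
    (treeSets E.tl E.hd).card * Phi (finKern f T) (Finset.univ.map ⟨E.slot, E.slot_inj⟩) h =
      ∑ F ∈ treeSets E.tl E.hd, ∏ i, if i ∈ F then 1 + h (E.slot i) else 1 - h (E.slot i) := by
  classical
  obtain ⟨r⟩ := hc.coe.nonempty
  let eI : H.edgeSet ≃ (Finset.univ.map ⟨E.slot, E.slot_inj⟩ : Finset (V × ℕ)) :=
    Equiv.ofBijective (fun i => ⟨E.slot i, Finset.mem_map_of_mem _ (Finset.mem_univ i)⟩)
      ⟨fun a b e => E.slot_inj (congrArg Subtype.val e), fun ⟨s, hs⟩ => by
        obtain ⟨i, -, rfl⟩ := Finset.mem_map.mp hs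
        exact ⟨i, rfl⟩⟩
  have hmat : ∀ k : V × ℕ → ℝ, Phi (finKern f T) (Finset.univ.map ⟨E.slot, E.slot_inj⟩) k =
      (1 + Matrix.diagonal (fun i => k (E.slot i)) *
        ((2 : ℝ) • current E.tl E.hd r - 1)).det := by
    intro k
    rw [Phi, ← Matrix.det_submatrix_equiv_self eI]
    congr 1
    ext i j
    have hb : bas (E.slot j) (E.slot i) = (1 : Matrix H.edgeSet H.edgeSet ℝ) i j := by
      by_cases hij : i = j
      · subst hij; rw [bas_self, Matrix.one_apply_eq]
      · rw [bas_ne fun e => hij (E.slot_inj e), Matrix.one_apply_ne hij]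
    have hp := E.pfin_eq hc r i j
    rw [pfin] at hp
    simp only [Matrix.submatrix_apply, mmat, Matrix.of_apply, Matrix.add_apply,
      Matrix.diagonal_mul, Matrix.sub_apply, Matrix.smul_apply, smul_eq_mul]
    show (1 : Matrix _ _ ℝ) (eI i) (eI j) + k (E.slot i) *
      (finKern f T).ent (E.slot i) (E.slot j) = _
    rw [finKern, kernOf_ent, hb, hp]
    have h1 : (1 : Matrix _ _ ℝ) (eI i) (eI j) = (1 : Matrix H.edgeSet H.edgeSet ℝ) i j := by
      simp [Matrix.one_apply, eI.injective.eq_iff]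
    rw [h1]; ring
  have hcont := continuous_Phi_scale (finKern f T) (Finset.univ.map ⟨E.slot, E.slot_inj⟩) h
  have hlt : ∀ t ∈ Set.Ico (0 : ℝ) 1, (treeSets E.tl E.hd).card *
      Phi (finKern f T) (Finset.univ.map ⟨E.slot, E.slot_inj⟩) (fun s => t * h s) =
        ∑ F ∈ treeSets E.tl E.hd, ∏ i,
          if i ∈ F then 1 + t * h (E.slot i) else 1 - t * h (E.slot i) := fun t ht => by
    rw [hmat]
    exact det_current E.tl E.hd r E.ne E.inj (E.connected_univ hc) fun i => by
      rw [abs_mul, abs_of_nonneg ht.1]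
      nlinarith [hh (E.slot i), ht.2, ht.1, abs_nonneg (h (E.slot i))]
  have h1 : Tendsto (fun n : ℕ => 1 - 1 / ((n : ℝ) + 1)) atTop (𝓝 1) := by
    simpa using (tendsto_one_div_add_atTop_nhds_zero_nat (𝕜 := ℝ)).const_sub 1
  have hmem : ∀ n : ℕ, 1 - 1 / ((n : ℝ) + 1) ∈ Set.Ico (0 : ℝ) 1 := fun n => by
    refine ⟨?_, by linarith [show (0 : ℝ) < 1 / ((n : ℝ) + 1) by positivity]⟩
    have : 1 / ((n : ℝ) + 1) ≤ 1 := by rw [div_le_one (by positivity)]; simp
    linarith
  have hR : Continuous fun t : ℝ => ∑ F ∈ treeSets E.tl E.hd, ∏ i,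
      if i ∈ F then 1 + t * h (E.slot i) else 1 - t * h (E.slot i) := by
    refine continuous_finsetSum _ fun F _ => continuous_finsetProd _ fun i _ => ?_
    split_ifs <;> fun_prop
  have l1 := ((hcont.tendsto 1).comp h1).const_mul ((treeSets E.tl E.hd).card : ℝ)
  have l2 := (hR.tendsto 1).comp h1
  have := tendsto_nhds_unique (l1.congr fun n => hlt _ (hmem n)) l2
  simpa using this

/-- The subgraph of a set of edges. -/
def sub (F : Finset H.edgeSet) : G.Subgraph where
  verts := H.verts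
  Adj a b := ∃ i ∈ F, (i : Sym2 V) = s(a, b)
  adj_sub := fun {a b} ⟨i, _, h⟩ => H.adj_sub (by have := i.2; rw [h] at this; exact this)
  edge_vert := fun {a b} ⟨i, _, h⟩ => H.edge_vert (by
    have := i.2; rw [h] at this; exact this)
  symm := ⟨fun a b ⟨i, hi, h⟩ => ⟨i, hi, h.trans Sym2.eq_swap⟩⟩

omit [DecidableEq V] [Fintype H.verts] [Fintype H.edgeSet] [DecidableEq H.edgeSet] in
lemma mem_edgeSet_sub (F : Finset H.edgeSet) (e : Sym2 V) :
    e ∈ (sub F).edgeSet ↔ ∃ i ∈ F, (i : Sym2 V) = e := by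
  induction e using Sym2.ind with
  | _ a b => exact Iff.rfl

lemma sub_spanning {F : Finset H.edgeSet} :
    sub F ∈ spanningTrees H ↔ F ∈ treeSets E.tl E.hd := by
  have e : (sub F).coe = gr E.tl E.hd F := by
    ext a b
    exact (E.gr_adj F a b).symm
  simp only [spanningTrees, Set.mem_ofPred_eq, treeSets, Finset.mem_filter, Finset.mem_univ,
    true_and]
  rw [e]
  exact ⟨fun h => h.2.2, fun h => ⟨⟨le_rfl, fun a b ⟨i, _, hh⟩ => by
    have := i.2; rw [hh] at this; exact this⟩, rfl, h⟩⟩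

lemma ncard_trees (P : Set (Sym2 V) → Prop) [DecidablePred fun F : Finset H.edgeSet => P (sub F).edgeSet] :
    {T ∈ spanningTrees H | P T.edgeSet}.ncard =
      ((treeSets E.tl E.hd).filter fun F => P (sub F).edgeSet).card := by
  classical
  rw [← Set.ncard_coe_finset]
  refine (Set.ncard_congr (fun F _ => sub F) (fun F hF => ?_) (fun F F' _ _ h => ?_)
    (fun S hS => ?_)).symm
  · rw [Finset.mem_coe, Finset.mem_filter] at hF
    exact ⟨E.sub_spanning.mpr hF.1, hF.2⟩
  · ext i
    have := congrArg (fun S : G.Subgraph => (i : Sym2 V) ∈ S.edgeSet) h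
    simp only [mem_edgeSet_sub] at this
    exact ⟨fun hi => by
        obtain ⟨k, hk, hki⟩ := this ▸ (⟨i, hi, rfl⟩ : ∃ k ∈ F, (k : Sym2 V) = i)
        rwa [← Subtype.ext hki],
      fun hi => by
        obtain ⟨k, hk, hki⟩ := this.symm ▸ (⟨i, hi, rfl⟩ : ∃ k ∈ F', (k : Sym2 V) = i)
        rwa [← Subtype.ext hki]⟩
  · obtain ⟨hT, hP⟩ := hS
    have e : sub (Finset.univ.filter fun i : H.edgeSet => (i : Sym2 V) ∈ S.edgeSet) = S := by
      refine SimpleGraph.Subgraph.ext hT.2.1.symm ?_
      funext a b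
      refine propext ⟨?_, fun h => ?_⟩
      · rintro ⟨i, hi, hh⟩
        rw [Finset.mem_filter, hh] at hi
        exact hi.2
      · have hH : H.Adj a b := hT.1.2 h
        exact ⟨⟨_, hH⟩, by rw [Finset.mem_filter]; exact ⟨Finset.mem_univ _, h⟩, rfl⟩
    refine ⟨_, ?_, e⟩
    rw [Finset.mem_coe, Finset.mem_filter, ← E.sub_spanning, e]
    exact ⟨hT, hP⟩

/-- A pattern probability of the uniform spanning tree is determinantal. -/
theorem ust_eq (hc : H.Connected) (D : Finset H.edgeSet) (p : Sym2 V → Bool) (τ : V × ℕ → Bool)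
    (hτ : ∀ i ∈ D, τ (E.slot i) = p i) :
    ustProb H (D.map (Function.Embedding.subtype _)) p =
      (1 / 2) ^ D.card * Phi (finKern f T) (D.map ⟨E.slot, E.slot_inj⟩) fun s => spin (τ s) := by
  classical
  set Dm := D.map ⟨E.slot, E.slot_inj⟩
  set h : V × ℕ → ℝ := fun s => if s ∈ Dm then spin (τ s) else 0
  have hh : ∀ s, |h s| ≤ 1 := fun s => by
    by_cases hs : s ∈ Dm <;> simp [h, hs, Vale.Agent.P161.abs_spin]
  have hsub : Dm ⊆ Finset.univ.map ⟨E.slot, E.slot_inj⟩ := Finset.map_subset_map.mpr D.subset_univ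
  have e1 : Phi (finKern f T) (Finset.univ.map ⟨E.slot, E.slot_inj⟩) h =
      Phi (finKern f T) Dm fun s => spin (τ s) := by
    rw [Phi_mono_set _ hsub fun s _ hs => if_neg hs]
    exact Phi_congr _ _ fun s hs => if_pos hs
  set N := treeSets E.tl E.hd
  set P : Set (Sym2 V) → Prop := fun S =>
    ∀ e ∈ D.map (Function.Embedding.subtype _), (e ∈ S ↔ p e = true)
  have hterm : ∀ F : Finset H.edgeSet,
      (∏ i, if i ∈ F then 1 + h (E.slot i) else 1 - h (E.slot i)) =
        if P (sub F).edgeSet then (2 : ℝ) ^ D.card else 0 := by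
    intro F
    rw [← Finset.prod_subset D.subset_univ (fun i _ hi => by
      have hn : E.slot i ∉ Dm := fun hm => by
        obtain ⟨j, hj, hji⟩ := Finset.mem_map.mp hm
        exact hi (E.slot_inj hji ▸ hj)
      simp [h, hn])]
    have hiF : ∀ i : H.edgeSet, (i : Sym2 V) ∈ (sub F).edgeSet ↔ i ∈ F := fun i => by
      rw [mem_edgeSet_sub]
      exact ⟨fun ⟨k, hk, hki⟩ => by rwa [← Subtype.ext hki], fun hi => ⟨i, hi, rfl⟩⟩
    have hi2 : ∀ i ∈ D, h (E.slot i) = spin (p i) := fun i hi => by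
      have : E.slot i ∈ Dm := Finset.mem_map_of_mem ⟨E.slot, E.slot_inj⟩ hi
      simp [h, this, hτ i hi]
    split_ifs with hP
    · refine Finset.prod_eq_pow_card fun i hi => ?_
      have hPi := hP i (Finset.mem_map_of_mem _ hi)
      rw [hiF] at hPi
      rw [hi2 i hi]
      cases hp : p (i : Sym2 V) <;> simp [hp, spin] at hPi ⊢ <;> norm_num [hPi]
    · simp only [P, Finset.mem_map, Function.Embedding.subtype_apply, forall_exists_index,
        and_imp, forall_apply_eq_imp_iff₂, not_forall] at hP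
      obtain ⟨i, hi, hP⟩ := hP
      refine Finset.prod_eq_zero hi ?_
      rw [hiF] at hP
      rw [hi2 i hi]
      cases hp : p (i : Sym2 V) <;> by_cases hF : i ∈ F <;> simp [hp, hF, spin] at hP ⊢
  have key := E.card_mul_Phi hc hh
  rw [e1] at key
  simp only [hterm] at key
  rw [← Finset.sum_filter, Finset.sum_const, nsmul_eq_mul] at key
  have hN : (N.card : ℝ) ≠ 0 := Nat.cast_ne_zero.mpr (Finset.card_pos.mpr
    (treeSets_nonempty E.tl E.hd E.ne E.inj (E.connected_univ hc))).ne'
  have htot : (spanningTrees H).ncard = N.card := by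
    have := E.ncard_trees (fun _ => True)
    simpa using this
  have hnum : {T ∈ spanningTrees H |
      ∀ e ∈ D.map (Function.Embedding.subtype _), (e ∈ T.edgeSet ↔ p e = true)}.ncard =
        (N.filter fun F => P (sub F).edgeSet).card := E.ncard_trees P
  rw [ustProb, htot, hnum, div_eq_iff hN, mul_assoc, mul_comm _ (N.card : ℝ), key, ← mul_assoc,
    mul_comm _ ((N.filter fun F => P (sub F).edgeSet).card : ℝ), mul_assoc, ← mul_pow]
  norm_num

end EdgeSlots

end Vale.Agent.P143
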