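import Vale.Agent.P143.Finite2
import Vale.Agent.P143.Exhaust
import Vale.Agent.P161.Random
import Vale.Agent.P161.Main

/-!
# The free forest as a factor of i.i.d. labels
-/

open Filter Topology unitInterval Function MeasureTheory

namespace Vale.Agent.P143

open Vale.Agent.P161 (spin rho inp iidLabels map_rho_inp measurable_rho_inp)

variable {V : Type*}

/-- The inputs of the slots. -/
noncomputable def slotInp (u : V × ℕ → I) (j : (V × ℕ) × ℕ) : I :=
  u (j.1.1, Nat.pair j.1.2 j.2)

open Classical in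
/-- The forest from an order and inputs. -/
noncomputable def forestOut (a : V → V → Bool) (q : (V → I) × (V × ℕ → I)) (e : Sym2 V) : Bool :=
  decide (∃ s : V × ℕ, ∃ w, endp a q.1 s = some w ∧ s(s.1, w) = e ∧
    spinOut (forestKern (endp a q.1)) (slotLt q.1) (slotInp q.2) s = true)

/-- The factor map. -/
noncomputable def forestFactor (a : V → V → Bool) (U : V → I) : Sym2 V → Bool :=
  forestOut a (rho U, inp U)

section Meas

variable [Countable V]

lemma measurable_adj_apply (v w : V) :
    Measurable fun q : (V → V → Bool) × ((V → I) × (V × ℕ → I)) => q.1 v w :=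
  (measurable_pi_apply w).comp ((measurable_pi_apply v).comp measurable_fst)

lemma measurable_ord_apply (v : V) :
    Measurable fun q : (V → V → Bool) × ((V → I) × (V × ℕ → I)) => q.2.1 v :=
  (measurable_pi_apply v).comp (measurable_fst.comp measurable_snd)

lemma measurableSet_cand (v w : V) :
    MeasurableSet {q : (V → V → Bool) × ((V → I) × (V × ℕ → I)) | Cand q.1 q.2.1 v w} := by
  have h1 : MeasurableSet {q : (V → V → Bool) × ((V → I) × (V × ℕ → I)) | q.1 v w = true} :=
    measurable_adj_apply v w (measurableSet_singleton true)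
  have h2 : MeasurableSet {q : (V → V → Bool) × ((V → I) × (V × ℕ → I)) | q.2.1 v < q.2.1 w} :=
    measurableSet_lt (measurable_ord_apply v) (measurable_ord_apply w)
  exact h1.inter h2

lemma measurableSet_rankIs (v : V) (i : ℕ) (w : V) :
    MeasurableSet {q : (V → V → Bool) × ((V → I) × (V × ℕ → I)) | RankIs q.1 q.2.1 v i w} := by
  classical
  have hc : ∀ x, MeasurableSet {q : (V → V → Bool) × ((V → I) × (V × ℕ → I)) |
      Cand q.1 q.2.1 v x ∧ q.2.1 x < q.2.1 w} := fun x =>
    (measurableSet_cand v x).inter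
      (measurableSet_lt (measurable_subtype_coe.comp (measurable_ord_apply x))
        (measurable_subtype_coe.comp (measurable_ord_apply w)))
  have e : {q : (V → V → Bool) × ((V → I) × (V × ℕ → I)) | RankIs q.1 q.2.1 v i w} =
      {q | Cand q.1 q.2.1 v w} ∩ ⋃ F ∈ {F : Finset V | F.card = i},
        ⋂ x, if x ∈ F then {q | Cand q.1 q.2.1 v x ∧ q.2.1 x < q.2.1 w}
          else {q | Cand q.1 q.2.1 v x ∧ q.2.1 x < q.2.1 w}ᶜ := by
    ext q
    simp only [RankIs, Set.mem_ofPred_eq, Set.mem_inter_iff, Set.mem_iUnion, Set.mem_iInter,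
      exists_prop]
    refine and_congr_right fun _ => exists_congr fun F => and_congr_right fun _ =>
      forall_congr' fun x => ?_
    by_cases hx : x ∈ F <;> simp [hx]
  rw [e]
  refine (measurableSet_cand v w).inter (MeasurableSet.biUnion (Set.to_countable _) fun F _ =>
    MeasurableSet.iInter fun x => ?_)
  split_ifs
  · exact hc x
  · exact (hc x).compl

lemma measurableSet_endp (s : V × ℕ) (o : Option V) :
    MeasurableSet {q : (V → V → Bool) × ((V → I) × (V × ℕ → I)) | endp q.1 q.2.1 s = o} := by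
  classical
  have some_case : ∀ w, MeasurableSet
      {q : (V → V → Bool) × ((V → I) × (V × ℕ → I)) | endp q.1 q.2.1 s = some w} := fun w => by
    have e : {q : (V → V → Bool) × ((V → I) × (V × ℕ → I)) | endp q.1 q.2.1 s = some w} =
        {q | RankIs q.1 q.2.1 s.1 s.2 w} ∩
          ⋂ w', ⋂ (_ : w' ≠ w), {q | RankIs q.1 q.2.1 s.1 s.2 w'}ᶜ := by
      ext q
      simp only [Set.mem_ofPred_eq, endp_eq_some_iff, Set.mem_inter_iff, Set.mem_iInter,
        Set.mem_compl_iff]
      exact and_congr_right fun _ => forall_congr' fun w' =>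
        ⟨fun h hne hR => hne (h hR), fun h hR => by_contra fun hne => h hne hR⟩
    rw [e]
    exact (measurableSet_rankIs s.1 s.2 w).inter (MeasurableSet.iInter fun w' =>
      MeasurableSet.iInter fun _ => (measurableSet_rankIs s.1 s.2 w').compl)
  cases o with
  | some w => exact some_case w
  | none =>
    have e : {q : (V → V → Bool) × ((V → I) × (V × ℕ → I)) | endp q.1 q.2.1 s = none} =
        (⋃ w, {q | endp q.1 q.2.1 s = some w})ᶜ := by
      ext q
      simp only [Set.mem_ofPred_eq, Set.mem_compl_iff, Set.mem_iUnion]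
      cases endp q.1 q.2.1 s <;> simp
    rw [e]
    exact (MeasurableSet.iUnion some_case).compl

lemma measurable_forestOut :
    Measurable fun q : (V → V → Bool) × ((V → I) × (V × ℕ → I)) => forestOut q.1 q.2 := by
  classical
  have hlt : ∀ s t : V × ℕ, MeasurableSet
      {q : (V → V → Bool) × ((V → I) × (V × ℕ → I)) | slotLt q.2.1 s t} := fun s t =>
    (measurableSet_lt (measurable_ord_apply s.1) (measurable_ord_apply t.1)).union
      (MeasurableSet.const _)
  have hsp : ∀ s, Measurable fun q : (V → V → Bool) × ((V → I) × (V × ℕ → I)) =>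
      spinOut (forestKern (endp q.1 q.2.1)) (slotLt q.2.1) (slotInp q.2.2) s := fun s =>
    measurable_spinOut_param (fun s t => measurable_forest_ent measurableSet_endp s t)
      (fun q => slotLt_irr q.2.1) hlt
      (fun j => (measurable_pi_apply (j.1.1, Nat.pair j.1.2 j.2)).comp
        (measurable_snd.comp measurable_snd)) s
  refine measurable_pi_iff.mpr fun e => measurable_to_bool ?_
  have h : (fun q : (V → V → Bool) × ((V → I) × (V × ℕ → I)) => forestOut q.1 q.2 e) ⁻¹' {true} =
      ⋃ s : V × ℕ, ⋃ w, ⋃ (_ : s(s.1, w) = e), {q | endp q.1 q.2.1 s = some w} ∩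
        (fun q => spinOut (forestKern (endp q.1 q.2.1)) (slotLt q.2.1) (slotInp q.2.2) s) ⁻¹'
          {true} := by
    ext q
    simp only [forestOut, Set.mem_preimage, Set.mem_singleton_iff, decide_eq_true_eq,
      Set.mem_iUnion, Set.mem_inter_iff, Set.mem_ofPred_eq, exists_prop]
    exact exists_congr fun s => exists_congr fun w =>
      ⟨fun ⟨h1, h2, h3⟩ => ⟨h2, h1, h3⟩, fun ⟨h1, h2, h3⟩ => ⟨h2, h1, h3⟩⟩
  rw [h]
  exact MeasurableSet.iUnion fun s => MeasurableSet.iUnion fun w => MeasurableSet.iUnion fun _ =>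
    (measurableSet_endp s _).inter (hsp s (measurableSet_singleton true))

lemma measurable_forestFactor :
    Measurable fun p : (V → V → Bool) × (V → I) => forestFactor p.1 p.2 :=
  (measurable_forestOut (V := V)).comp
    (measurable_fst.prodMk (measurable_rho_inp.comp measurable_snd))

end Meas

section Natural

variable {W : Type*} [Countable V] [Countable W] (e : V ≃ W)

lemma endp_map {a : V → V → Bool} {a' : W → W → Bool} {ρ : V → I} {ρ' : W → I}
    (ha : ∀ v w, a' (e v) (e w) = a v w) (hρ : ∀ v, ρ' (e v) = ρ v) (v : V) (i : ℕ) :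
    endp a' ρ' (e v, i) = (endp a ρ (v, i)).map e := by
  classical
  have hR : ∀ w, RankIs a' ρ' (e v) i (e w) ↔ RankIs a ρ v i w := fun w => by
    simp only [RankIs, Cand, ha, hρ]
    refine and_congr_right fun _ => ⟨?_, ?_⟩
    · rintro ⟨F, hF, hx⟩
      refine ⟨F.map e.symm.toEmbedding, by simp [hF], fun x => ?_⟩
      have := hx (e x)
      simp only [ha, hρ] at this
      rw [← this]
      simp [Finset.mem_map_equiv]
    · rintro ⟨F, hF, hx⟩
      refine ⟨F.map e.toEmbedding, by simp [hF], fun y => ?_⟩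
      obtain ⟨x, rfl⟩ := e.surjective y
      simp only [ha, hρ]
      rw [← hx x]
      simp [Finset.mem_map_equiv]
  refine Option.ext fun y => ?_
  obtain ⟨w, rfl⟩ := e.surjective y
  rw [Option.map_eq_some_iff]
  simp only [endp_eq_some_iff, e.injective.eq_iff, exists_eq_right]
  refine and_congr (hR w) ⟨fun h w' hw' => e.injective (h _ ((hR w').mpr hw')), fun h y hy => ?_⟩
  obtain ⟨w', rfl⟩ := e.surjective y
  rw [h w' ((hR w').mp hy)]

/-- The factor is natural in bijections of the vertices. -/
lemma forestFactor_map {a : V → V → Bool} {a' : W → W → Bool} {U : V → I} {U' : W → I}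
    (ha : ∀ v w, a' (e v) (e w) = a v w) (hU : ∀ v, U' (e v) = U v) (x : Sym2 V) :
    forestFactor a' U' (x.map e) = forestFactor a U x := by
  classical
  have hρ : ∀ v, rho U' (e v) = rho U v := fun v => by simp only [rho, hU]
  have hf := endp_map e ha hρ
  have hsp : ∀ s : V × ℕ, spinOut (forestKern (endp a' (rho U'))) (slotLt (rho U'))
      (slotInp (inp U')) (slotEquiv e s) =
        spinOut (forestKern (endp a (rho U))) (slotLt (rho U)) (slotInp (inp U)) s := fun s =>
    spinOut_map (slotEquiv e) (forest_ent_map e hf)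
      (fun p q => by simp [slotLt, slotEquiv, hρ]) (slotLt_irr _)
      (fun p k => by simp [slotInp, inp, slotEquiv, hU]) s
  unfold forestFactor forestOut
  refine decide_eq_decide.mpr ⟨?_, ?_⟩
  · rintro ⟨t, y, h1, h2, h3⟩
    obtain ⟨s, rfl⟩ := (slotEquiv e).surjective t
    obtain ⟨w, rfl⟩ := e.surjective y
    refine ⟨s, w, ?_, Sym2.map.injective e.injective ?_, (hsp s).symm.trans h3⟩
    · rw [map_end e hf] at h1
      obtain ⟨w', hw', he⟩ := Option.map_eq_some_iff.mp h1
      rwa [← e.injective he]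
    · simpa [slotEquiv] using h2
  · rintro ⟨s, w, h1, h2, h3⟩
    refine ⟨slotEquiv e s, e w, ?_, ?_, (hsp s).trans h3⟩
    · rw [map_end e hf]
      exact Option.map_eq_some_iff.mpr ⟨w, h1, rfl⟩
    · rw [← h2]; rfl

end Natural

section Law

open scoped Classical

variable [Countable V] {G : SimpleGraph V} [G.LocallyFinite] {ρ : V → I} (hρ : Injective ρ)

omit [Countable V] [G.LocallyFinite] in
lemma adj_of_endp {s : V × ℕ} {w : V} (h : endp (adjFun G) ρ s = some w) :
    G.Adj s.1 w ∧ ρ s.1 < ρ w := by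
  have := (endp_eq_some_iff.mp h).1.1
  exact ⟨by simpa [adjFun] using this.1, this.2⟩

include hρ

omit [Countable V] in
lemma exists_slot {e : Sym2 V} (he : e ∈ G.edgeSet) :
    ∃ s : V × ℕ, ∃ w, endp (adjFun G) ρ s = some w ∧ s(s.1, w) = e := by
  classical
  induction e using Sym2.ind with
  | _ a b =>
    have main : ∀ v w, G.Adj v w → ρ v < ρ w → ∃ i, endp (adjFun G) ρ (v, i) = some w := by
      intro v w hvw hlt
      have hmem : ∀ x y, x ∈ (G.neighborFinset v).filter (fun z => ρ v < ρ z ∧ ρ z < ρ y) ↔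
          Cand (adjFun G) ρ v x ∧ ρ x < ρ y := fun x y => by
        simp [Cand, adjFun, and_assoc]
      set F := fun y => (G.neighborFinset v).filter (fun z => ρ v < ρ z ∧ ρ z < ρ y)
      refine ⟨(F w).card, endp_eq_some_iff.mpr ⟨⟨⟨by simp [adjFun, hvw], hlt⟩, F w, rfl,
        fun x => hmem x w⟩, fun w' hw' => ?_⟩⟩
      obtain ⟨hc, F', hcard, hF'⟩ := hw'
      have e' : F' = F w' := Finset.ext fun x => (hF' x).trans (hmem x w').symm
      subst e'
      have lt_card : ∀ p q, Cand (adjFun G) ρ v p → ρ p < ρ q → (F p).card < (F q).card := by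
        intro p q hp hpq
        refine Finset.card_lt_card ⟨fun x hx => (hmem x q).mpr ⟨((hmem x p).mp hx).1,
          ((hmem x p).mp hx).2.trans hpq⟩, fun hh => ?_⟩
        exact lt_irrefl _ ((hmem p p).mp (hh ((hmem p q).mpr ⟨hp, hpq⟩))).2
      rcases lt_trichotomy (ρ w') (ρ w) with h | h | h
      · exact absurd hcard (lt_card w' w hc h).ne
      · exact hρ h
      · exact absurd hcard (lt_card w w' ⟨by simp [adjFun, hvw], hlt⟩ h).ne'
    rcases lt_trichotomy (ρ a) (ρ b) with h | h | h
    · obtain ⟨i, hi⟩ := main a b he h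
      exact ⟨(a, i), b, hi, rfl⟩
    · exact absurd (hρ h) (G.ne_of_adj he)
    · obtain ⟨i, hi⟩ := main b a (G.adj_symm he) h
      exact ⟨(b, i), a, hi, Sym2.eq_swap⟩

omit [Countable V] [G.LocallyFinite] in
lemma slot_unique {s t : V × ℕ} {w x : V} (hs : endp (adjFun G) ρ s = some w)
    (ht : endp (adjFun G) ρ t = some x) (h : s(s.1, w) = s(t.1, x)) : s = t := by
  have a1 := (adj_of_endp hs).2
  have a2 := (adj_of_endp ht).2
  rcases Sym2.eq_iff.mp h with ⟨h1, h2⟩ | ⟨h1, h2⟩
  · obtain ⟨⟨-, F, hF, hFm⟩, -⟩ := endp_eq_some_iff.mp hs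
    obtain ⟨⟨-, F', hF', hFm'⟩, -⟩ := endp_eq_some_iff.mp ht
    rw [h1, h2] at hFm
    have : F = F' := Finset.ext fun y => (hFm y).trans (hFm' y).symm
    exact Prod.ext h1 (by rw [← hF, ← hF', this])
  · rw [h1, h2] at a1
    exact absurd a1 (not_lt.mpr a2.le)

/-- The slot of an edge. -/
noncomputable def slotOf (e : G.edgeSet) : V × ℕ := (exists_slot hρ e.2).choose

/-- The far end of an edge. -/
noncomputable def farOf (e : G.edgeSet) : V := (exists_slot hρ e.2).choose_spec.choose

omit [Countable V] in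
lemma slotOf_spec (e : G.edgeSet) :
    endp (adjFun G) ρ (slotOf hρ e) = some (farOf hρ e) ∧ s((slotOf hρ e).1, farOf hρ e) = e :=
  (exists_slot hρ e.2).choose_spec.choose_spec

omit [Countable V] in
lemma slotOf_injective : Injective (slotOf hρ (G := G)) := fun e e' h => by
  obtain ⟨h1, h2⟩ := slotOf_spec hρ e
  obtain ⟨h1', h2'⟩ := slotOf_spec hρ e'
  apply Subtype.ext
  rw [← h, h1] at h1'
  rw [← h2, ← h2', h, Option.some.inj h1']

omit [Countable V] in
lemma forestOut_eq (u : V × ℕ → I) (e : G.edgeSet) :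
    forestOut (adjFun G) (ρ, u) e =
      spinOut (forestKern (endp (adjFun G) ρ)) (slotLt ρ) (slotInp u) (slotOf hρ e) := by
  classical
  obtain ⟨h1, h2⟩ := slotOf_spec hρ e
  unfold forestOut
  rw [Bool.eq_iff_iff, decide_eq_true_eq]
  refine ⟨?_, fun h => ⟨_, _, h1, h2, h⟩⟩
  rintro ⟨s, w, hs, hse, hsp⟩
  rw [← slot_unique hρ hs h1 (hse.trans h2.symm)]
  exact hsp

omit hρ in
lemma map_slotInp :
    (iidLabels (V × ℕ)).map slotInp = iidLabels ((V × ℕ) × ℕ) := by
  let eq : (V × ℕ) × ℕ ≃ V × ℕ :=
    (Equiv.prodAssoc V ℕ ℕ).trans ((Equiv.refl V).prodCongr Nat.pairEquiv)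
  have := Measure.infinitePi_map_piCongrLeft (μ := fun _ : (V × ℕ) × ℕ => (volume : Measure I))
    eq.symm
  have e : ⇑(MeasurableEquiv.piCongrLeft (fun _ : (V × ℕ) × ℕ => I) eq.symm) = slotInp (V := V) := by
    funext x j
    have hj := Equiv.piCongrLeft_apply_apply (fun _ : (V × ℕ) × ℕ => I) eq.symm x (eq j)
    rw [Equiv.symm_apply_apply] at hj
    rw [MeasurableEquiv.coe_piCongrLeft, hj]
    rfl
  rw [e] at this
  exact this

/-- The law of the forest on present edges. -/
lemma law_edges (D : Finset G.edgeSet) (p : Sym2 V → Bool) (τ : V × ℕ → Bool)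
    (hτ : ∀ e ∈ D, τ (slotOf hρ e) = p e) :
    (iidLabels (V × ℕ) {u | ∀ e ∈ D, forestOut (adjFun G) (ρ, u) e = p e}).toReal =
      (1 / 2) ^ D.card * (
        Phi (forestKern (endp (adjFun G) ρ)) (D.map ⟨slotOf hρ, slotOf_injective hρ⟩)
          fun s => spin (τ s)) := by
  classical
  have key := law_spinOut (C := forestKern (endp (adjFun G) ρ)) (slotLt_order hρ)
    (D.map ⟨slotOf hρ, slotOf_injective hρ⟩) τ
  rw [Finset.card_map] at key
  have hm : Measurable (slotInp (V := V)) :=
    measurable_pi_iff.mpr fun j => measurable_pi_apply _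
  rw [← key, ← map_slotInp, Measure.map_apply hm]
  · congr 2
    ext u
    simp only [Set.mem_preimage, Set.mem_ofPred_eq, Finset.mem_map, Function.Embedding.coeFn_mk,
      forall_exists_index, and_imp, forall_apply_eq_imp_iff₂]
    exact forall₂_congr fun e he => by rw [forestOut_eq hρ, hτ e he]
  · rw [show {u : (V × ℕ) × ℕ → I | ∀ v ∈ D.map ⟨slotOf hρ, slotOf_injective hρ⟩,
      spinOut (forestKern (endp (adjFun G) ρ)) (slotLt ρ) u v = τ v} =
      ⋂ v ∈ D.map ⟨slotOf hρ, slotOf_injective hρ⟩,
        (fun u => spinOut (forestKern (endp (adjFun G) ρ)) (slotLt ρ) u v) ⁻¹' {τ v} by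
        ext u; simp]
    exact Finset.measurableSet_biInter _ fun v _ =>
      measurable_spinOut (slotLt_order hρ) v (measurableSet_singleton _)

/-- Spanning tree probabilities converge to the determinantal ones. -/
lemma tendsto_ust {H : ℕ → G.Subgraph} (hH : IsExhaustion G H) (D : Finset G.edgeSet)
    (p : Sym2 V → Bool) (τ : V × ℕ → Bool) (hτ : ∀ e ∈ D, τ (slotOf hρ e) = p e) :
    Tendsto (fun n => ustProb (H n) (D.map (Embedding.subtype _)) p) atTop
      (𝓝 ((1 / 2) ^ D.card * (
        Phi (forestKern (endp (adjFun G) ρ)) (D.map ⟨slotOf hρ, slotOf_injective hρ⟩)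
          fun s => spin (τ s)))) := by
  classical
  obtain ⟨hmono, hfin, -, hedge⟩ := hH
  set f := endp (adjFun G) ρ with hf
  obtain ⟨An, hAn⟩ := exists_windows (S := V × ℕ)
  have hE : ∀ n, (H n).edgeSet.Finite := fun n =>
    Set.Finite.subset ((hfin n).1.toFinset.sym2.finite_toSet) fun e he => by
      induction e using Sym2.ind with
      | _ a b =>
        simp only [Finset.mem_coe, Finset.mk_mem_sym2_iff, Set.Finite.mem_toFinset]
        exact ⟨(H n).edge_vert he, (H n).edge_vert ((H n).adj_symm he)⟩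
  let inG : ∀ n, (H n).edgeSet → G.edgeSet := fun n i => ⟨i, (H n).edgeSet_subset i.2⟩
  letI inst : ∀ n, Fintype (H n).edgeSet := fun n => (hE n).fintype
  set Tn : ℕ → Finset (V × ℕ) := fun n =>
    Finset.univ.image (fun i => slotOf hρ (inG n i)) ∪ (An n).filter fun s => f s = none
  have hev : ∀ e : G.edgeSet, ∀ᶠ n in atTop, (e : Sym2 V) ∈ (H n).edgeSet := fun e => by
    obtain ⟨m, hm⟩ := hedge e e.2
    exact eventually_atTop.mpr ⟨m, fun n hn => SimpleGraph.Subgraph.edgeSet_mono (hmono hn) hm⟩
  have hT : ∀ s, ∀ᶠ n in atTop, s ∈ Tn n := by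
    intro s
    cases hs : f s with
    | none => exact (hAn s).mono fun n hn => Finset.mem_union_right _ (by simp [hn, hs])
    | some w =>
      have he : s(s.1, w) ∈ G.edgeSet := (adj_of_endp hs).1
      refine (hev ⟨_, he⟩).mono fun n hn => Finset.mem_union_left _ ?_
      refine Finset.mem_image.mpr ⟨⟨_, hn⟩, Finset.mem_univ _, ?_⟩
      exact slot_unique hρ (slotOf_spec hρ _).1 hs (slotOf_spec hρ _).2
  refine ((tendsto_Phi f hT _ _).const_mul _).congr' ?_
  filter_upwards [(Finset.eventually_all D).mpr fun e _ => hev e] with n hn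
  have := (hfin n).1.fintype
  let E : EdgeSlots (H n) f (Tn n) :=
    { slot := fun i => slotOf hρ (inG n i)
      far := fun i => farOf hρ (inG n i)
      far_eq := fun i => (slotOf_spec hρ _).1
      edge_eq := fun i => (slotOf_spec hρ _).2
      mem := fun i => Finset.mem_union_left _ (Finset.mem_image.mpr ⟨i, Finset.mem_univ i, rfl⟩)
      cover := fun s hs hne => by
        rcases Finset.mem_union.mp hs with h | h
        · obtain ⟨i, -, hi⟩ := Finset.mem_image.mp h
          exact ⟨i, hi⟩
        · exact absurd (Finset.mem_filter.mp h).2 hne }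
  let Dn : Finset (H n).edgeSet := D.attach.map ⟨fun e => ⟨(e.1 : Sym2 V), hn e.1 e.2⟩,
    fun a b h => by
      have h' := congrArg Subtype.val h
      exact Subtype.ext (Subtype.ext h')⟩
  have key := E.ust_eq (hfin n).2 Dn p τ fun i hi => by
    obtain ⟨e, -, rfl⟩ := Finset.mem_map.mp hi
    exact hτ e.1 e.2
  have e1 : Dn.map (Embedding.subtype _) = D.map (Embedding.subtype _) := by
    simp only [Dn, Finset.map_map]
    conv_rhs => rw [← Finset.attach_map_val (s := D), Finset.map_map]
    congr 1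
  have e2 : Dn.map ⟨E.slot, E.slot_inj⟩ = D.map ⟨slotOf hρ, slotOf_injective hρ⟩ := by
    simp only [Dn, Finset.map_map]
    conv_rhs => rw [← Finset.attach_map_val (s := D), Finset.map_map]
    congr 1
  have e3 : Dn.card = D.card := by simp [Dn]
  rw [e1, e2, e3] at key
  exact key.symm

end Law

end Vale.Agent.P143
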