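import Mathlib

/-!
# Tilted symmetric contractions: the posterior mean and its bounds
-/

open Filter Topology
open scoped InnerProductSpace

namespace Vale.Agent.P143

variable {S : Type*}

/-- Square summable real families. -/
abbrev L2 (S : Type*) := lp (fun _ : S => ℝ) 2

/-- Clamp a real into `[-1, 1]`. -/
noncomputable def clp (x : ℝ) : ℝ := max (-1) (min x 1)

lemma abs_clp_le (x : ℝ) : |clp x| ≤ 1 :=
  abs_le.mpr ⟨le_max_left _ _, max_le (by norm_num) (min_le_right _ _)⟩

lemma clp_eq {x : ℝ} (h : |x| ≤ 1) : clp x = x := by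
  obtain ⟨h1, h2⟩ := abs_le.mp h
  rw [clp, min_eq_left h2, max_eq_right h1]

lemma abs_clp_le_abs (x : ℝ) : |clp x| ≤ |x| := by
  rcases le_total (|x|) 1 with h | h
  · rw [clp_eq h]
  · exact (abs_clp_le x).trans h

lemma mul_mem_lp (h : S → ℝ) (f : L2 S) :
    Memℓp (fun s => clp (h s) * f s) 2 := by
  refine (lp.memℓp f).mono' fun s => ?_
  simp only [Real.norm_eq_abs, abs_mul]
  exact mul_le_of_le_one_left (abs_nonneg _) (abs_clp_le _)

/-- Multiplication by a family clamped into `[-1, 1]`. -/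
noncomputable def mulOp (h : S → ℝ) : L2 S →L[ℝ] L2 S :=
  LinearMap.mkContinuous
    { toFun := fun f => ⟨fun s => clp (h s) * f s, mul_mem_lp h f⟩
      map_add' := fun f g => by ext s; simp only [lp.coeFn_add, Pi.add_apply]; ring
      map_smul' := fun c f => by ext s; simp [mul_left_comm] }
    1 fun f => by
      rw [one_mul]
      refine lp.norm_mono (by norm_num) (fun s => ?_)
      simp only [LinearMap.coe_mk, AddHom.coe_mk, Real.norm_eq_abs, abs_mul]
      exact mul_le_of_le_one_left (abs_nonneg _) (abs_clp_le _)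

lemma mulOp_apply (h : S → ℝ) (f : L2 S) (s : S) : mulOp h f s = clp (h s) * f s := rfl

/-- A tilt bounded away from one. -/
def Adm (η : ℝ) (h : S → ℝ) : Prop := 0 < η ∧ η ≤ 1 ∧ ∀ s, |h s| ≤ 1 - η

lemma Adm.abs_lt {η : ℝ} {h : S → ℝ} (a : Adm η h) (s : S) : |h s| < 1 := by
  linarith [a.1, a.2.2 s]

lemma Adm.sq_lt {η : ℝ} {h : S → ℝ} (a : Adm η h) (s : S) : 0 < 1 - h s ^ 2 := by
  obtain ⟨p, q⟩ := _root_.abs_lt.mp (a.abs_lt s)
  nlinarith

lemma Adm.mulOp_eq {η : ℝ} {h : S → ℝ} (a : Adm η h) (f : L2 S) (s : S) :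
    mulOp h f s = h s * f s := by rw [mulOp_apply, clp_eq (a.abs_lt s).le]

lemma norm_mulOp_le {η : ℝ} {h : S → ℝ} (a : Adm η h) (f : L2 S) :
    ‖mulOp h f‖ ≤ (1 - η) * ‖f‖ := by
  have h0 : 0 ≤ 1 - η := by linarith [a.2.1]
  have := lp.norm_mono (p := 2) (by norm_num) (x := mulOp h f) (y := (1 - η) • f) fun s => by
    rw [a.mulOp_eq, lp.coeFn_smul, Pi.smul_apply, norm_smul, norm_mul]
    simp only [Real.norm_eq_abs, abs_of_nonneg h0]
    exact mul_le_mul_of_nonneg_right (a.2.2 s) (abs_nonneg _)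
  rwa [norm_smul, Real.norm_eq_abs, abs_of_nonneg h0] at this

/-- A symmetric contraction. -/
structure Kern (S : Type*) where
  op : L2 S →L[ℝ] L2 S
  sym : ∀ f g, ⟪op f, g⟫_ℝ = ⟪f, op g⟫_ℝ
  bound : ∀ f, ‖op f‖ ≤ ‖f‖

variable [DecidableEq S] (C : Kern S)

/-- The coordinate vector at `s`. -/
noncomputable def bas (s : S) : L2 S := lp.single 2 s (1 : ℝ)

lemma bas_self (s : S) : bas s s = 1 := lp.single_apply_self 2 s 1

lemma bas_ne {s t : S} (h : t ≠ s) : bas s t = 0 := lp.single_apply_ne 2 s 1 h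

lemma inner_bas (s : S) (f : L2 S) : ⟪bas s, f⟫_ℝ = f s := by
  rw [bas, lp.inner_single_left]
  simp

lemma norm_bas (s : S) : ‖bas s‖ = 1 := by
  rw [bas, lp.norm_single (by norm_num)]; simp

/-- The entries of a kernel. -/
noncomputable def Kern.ent (s t : S) : ℝ := C.op (bas t) s

lemma Kern.ent_comm (s t : S) : C.ent s t = C.ent t s := by
  simp only [Kern.ent, ← inner_bas]
  rw [← C.sym, real_inner_comm]

/-- The solution of `z + H C z = e_v`. -/
noncomputable def zvec (h : S → ℝ) (v : S) : L2 S :=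
  Ring.inverse (1 + (mulOp h).comp C.op) (bas v)

/-- The resolvent column `C z`. -/
noncomputable def rvec (h : S → ℝ) (v : S) : L2 S := C.op (zvec C h v)

/-- The tilted mean of the spin at `v`. -/
noncomputable def mean (h : S → ℝ) (v : S) : ℝ := h v + (1 - h v ^ 2) * rvec C h v v

variable {C} {η : ℝ} {h h' : S → ℝ}

omit [DecidableEq S] in
lemma Kern.comp_norm_lt (C : Kern S) (a : Adm η h) : ‖(mulOp h).comp C.op‖ < 1 := by
  have h0 : 0 ≤ 1 - η := by linarith [a.2.1]
  refine lt_of_le_of_lt (ContinuousLinearMap.opNorm_le_bound _ h0 fun f => ?_) (by linarith [a.1])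
  exact (norm_mulOp_le a _).trans (mul_le_mul_of_nonneg_left (C.bound f) h0)

omit [DecidableEq S] in
lemma Kern.isUnit_add (C : Kern S) (a : Adm η h) : IsUnit (1 + (mulOp h).comp C.op) := by
  have := isUnit_one_sub_of_norm_lt_one (x := -((mulOp h).comp C.op))
    (by rw [norm_neg]; exact C.comp_norm_lt a)
  simpa using this

lemma zvec_spec (a : Adm η h) (v : S) : zvec C h v + mulOp h (rvec C h v) = bas v := by
  have e := Ring.mul_inverse_cancel _ (C.isUnit_add a)
  have e' := congrArg (fun T : L2 S →L[ℝ] L2 S => T (bas v)) e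
  simpa [zvec, rvec] using e'

lemma zvec_coord (a : Adm η h) (v w : S) :
    zvec C h v w + h w * rvec C h v w = bas v w := by
  have e := congrArg (fun f : L2 S => f w) (zvec_spec (C := C) a v)
  simp only [lp.coeFn_add, Pi.add_apply, a.mulOp_eq] at e
  exact e

lemma zvec_unique (a : Adm η h) {v : S} {z : L2 S} (hz : z + mulOp h (C.op z) = bas v) :
    z = zvec C h v := by
  have e := congrArg (fun T : L2 S →L[ℝ] L2 S => T z) (Ring.inverse_mul_cancel _ (C.isUnit_add a))
  simp only [ContinuousLinearMap.one_apply, ContinuousLinearMap.mul_apply,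
    ContinuousLinearMap.add_apply, ContinuousLinearMap.comp_apply] at e
  rw [hz] at e
  exact e.symm

lemma norm_rvec_le (a : Adm η h) (v : S) : ‖rvec C h v‖ ≤ 1 / η := by
  have h1 : ‖zvec C h v‖ ≤ 1 + (1 - η) * ‖zvec C h v‖ := by
    calc ‖zvec C h v‖ = ‖bas v - mulOp h (rvec C h v)‖ := by
          rw [eq_sub_of_add_eq (zvec_spec (C := C) a v)]
      _ ≤ ‖bas v‖ + ‖mulOp h (rvec C h v)‖ := norm_sub_le _ _
      _ ≤ 1 + (1 - η) * ‖zvec C h v‖ := by
          rw [norm_bas]
          exact add_le_add le_rfl ((norm_mulOp_le a _).trans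
            (mul_le_mul_of_nonneg_left (C.bound _) (by linarith [a.2.1])))
  refine (C.bound _).trans ?_
  rw [le_div_iff₀ a.1]
  nlinarith

omit [DecidableEq S] in
lemma hasSum_sq (f : L2 S) : HasSum (fun s => f s ^ 2) (‖f‖ ^ 2) := by
  have := lp.hasSum_inner (𝕜 := ℝ) f f
  rw [real_inner_self_eq_norm_sq] at this
  simpa [pow_two] using this

/-- The row of covariances at `v` has weighted square sum at most `1 - mean ^ 2`. -/
lemma row_bound (a : Adm η h) (v : S) (F : Finset S) (hv : v ∉ F) :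
    (1 - h v ^ 2) * ∑ w ∈ F, (1 - h w ^ 2) * rvec C h v w ^ 2 ≤ 1 - mean C h v ^ 2 := by
  set z := zvec C h v with hz
  set r := rvec C h v with hr
  have hc : ∀ w, z w = bas v w - h w * r w := fun w => eq_sub_of_add_eq (zvec_coord a v w)
  have hs := (hasSum_sq r).sub (hasSum_sq z)
  have hle : ‖r‖ ^ 2 - ‖z‖ ^ 2 ≤ 0 :=
    sub_nonpos.mpr (pow_le_pow_left₀ (norm_nonneg _) (C.bound z) 2)
  have hne : ∀ w, w ≠ v → r w ^ 2 - z w ^ 2 = (1 - h w ^ 2) * r w ^ 2 := fun w hw => by
    rw [hc w, bas_ne hw]; ring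
  have key := sum_le_hasSum (insert v F) (fun w hw => by
    rw [Finset.mem_insert, not_or] at hw
    rw [hne w hw.1]
    exact mul_nonneg (a.sq_lt w).le (sq_nonneg _)) hs
  rw [Finset.sum_insert hv, Finset.sum_congr rfl fun w hw => hne w (fun e => hv (e ▸ hw))] at key
  have ev : (1 - h v ^ 2) * (r v ^ 2 - z v ^ 2) = mean C h v ^ 2 - 1 := by
    rw [hc v, bas_self, mean, ← hr]; ring
  have := mul_le_mul_of_nonneg_left (key.trans hle) (a.sq_lt v).le
  rw [mul_add, ev, mul_zero] at this
  linarith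

lemma abs_mean_le (a : Adm η h) (v : S) : |mean C h v| ≤ 1 := by
  have := row_bound (C := C) a v ∅ (Finset.notMem_empty v)
  simp only [Finset.sum_empty, mul_zero] at this
  exact abs_le_one_iff_mul_self_le_one.mpr (by nlinarith)

/-- The change of the resolvent column between two tilts. -/
lemma hasSum_rvec_sub {η' : ℝ} (a : Adm η h) (a' : Adm η' h') (v : S) :
    HasSum (fun w => rvec C h v w * ((h' w - h w) * rvec C h' v w))
      (rvec C h v v - rvec C h' v v) := by
  set z := zvec C h v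
  set z' := zvec C h' v
  set d := z - z'
  have e1 : rvec C h v v - rvec C h' v v = ⟪bas v, C.op d⟫_ℝ := by
    rw [map_sub, inner_sub_right, inner_bas, inner_bas]
    rfl
  have e2 : ⟪mulOp h (rvec C h v), C.op d⟫_ℝ = ⟪rvec C h v, mulOp h (C.op d)⟫_ℝ := by
    rw [lp.inner_eq_tsum, lp.inner_eq_tsum]
    refine tsum_congr fun w => ?_
    simp only [RCLike.inner_apply, conj_trivial, a.mulOp_eq]
    ring
  have e3 : rvec C h v v - rvec C h' v v = ⟪rvec C h v, d + mulOp h (C.op d)⟫_ℝ := by
    rw [e1, ← zvec_spec (C := C) a v, inner_add_left, e2, inner_add_right, ← C.sym]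
    rfl
  have e4 : ∀ w, (d + mulOp h (C.op d)) w = (h' w - h w) * rvec C h' v w := fun w => by
    have c1 := zvec_coord (C := C) a v w
    have c2 := zvec_coord (C := C) a' v w
    simp only [d, map_sub, lp.coeFn_add, lp.coeFn_sub, Pi.add_apply, Pi.sub_apply, a.mulOp_eq,
      rvec] at c1 c2 ⊢
    linarith
  rw [e3]
  have := lp.hasSum_inner (𝕜 := ℝ) (rvec C h v) (d + mulOp h (C.op d))
  simpa [e4, mul_comm, mul_left_comm] using this

/-- Changing the tilt away from `v` moves the mean at `v` by at most the relative change. -/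
lemma abs_mean_sub_le {η' t : ℝ} (a : Adm η h) (a' : Adm η' h') (v : S) (hv : h v = h' v)
    (ht0 : 0 ≤ t) (ht : ∀ w, |h' w - h w| ≤ t * (1 - h w ^ 2))
    (ht' : ∀ w, |h' w - h w| ≤ t * (1 - h' w ^ 2)) :
    |mean C h v - mean C h' v| ≤ t := by
  set r := rvec C h v
  set r' := rvec C h' v
  have hpos := a.sq_lt v
  have hs := hasSum_rvec_sub (C := C) a a' v
  have e : mean C h v - mean C h' v = (1 - h v ^ 2) * (r v - r' v) := by
    rw [mean, mean, hv]; ring
  rw [e, abs_mul, abs_of_pos hpos]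
  have : |r v - r' v| ≤ t / (1 - h v ^ 2) := by
    refine le_of_tendsto hs.abs (Eventually.of_forall fun F => ?_)
    rw [le_div_iff₀ hpos, mul_comm]
    rw [← Finset.sum_erase (s := F) (a := v)
      (f := fun w => r w * ((h' w - h w) * r' w)) (by rw [hv]; ring)]
    have b1 := row_bound (C := C) a v (F.erase v) (Finset.notMem_erase v F)
    have b2 := row_bound (C := C) a' v (F.erase v) (Finset.notMem_erase v F)
    rw [← hv] at b2
    calc (1 - h v ^ 2) * |∑ w ∈ F.erase v, r w * ((h' w - h w) * r' w)|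
        ≤ (1 - h v ^ 2) * ∑ w ∈ F.erase v,
            t / 2 * ((1 - h w ^ 2) * r w ^ 2 + (1 - h' w ^ 2) * r' w ^ 2) := by
          refine mul_le_mul_of_nonneg_left ((Finset.abs_sum_le_sum_abs _ _).trans
            (Finset.sum_le_sum fun w _ => ?_)) hpos.le
          rw [abs_mul, abs_mul]
          have hd := abs_nonneg (h' w - h w)
          have h2 : 2 * (|r w| * |r' w|) ≤ r w ^ 2 + r' w ^ 2 := by
            nlinarith [sq_nonneg (|r w| - |r' w|), sq_abs (r w), sq_abs (r' w)]
          nlinarith [mul_le_mul_of_nonneg_left h2 hd,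
            mul_le_mul_of_nonneg_right (ht w) (sq_nonneg (r w)),
            mul_le_mul_of_nonneg_right (ht' w) (sq_nonneg (r' w))]
      _ ≤ t := by
          rw [← Finset.mul_sum, Finset.sum_add_distrib]
          have b12 : (1 - h v ^ 2) * (∑ w ∈ F.erase v, (1 - h w ^ 2) * r w ^ 2 +
              ∑ w ∈ F.erase v, (1 - h' w ^ 2) * r' w ^ 2) ≤ 2 := by
            rw [mul_add]
            nlinarith [sq_nonneg (mean C h v), sq_nonneg (mean C h' v), b1, b2]
          nlinarith [mul_le_mul_of_nonneg_left b12 (half_pos (show (0 : ℝ) < 1 by norm_num)).le,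
            mul_le_mul_of_nonneg_left b12 (by linarith : 0 ≤ t / 2)]
  calc (1 - h v ^ 2) * |r v - r' v| ≤ (1 - h v ^ 2) * (t / (1 - h v ^ 2)) :=
        mul_le_mul_of_nonneg_left this hpos.le
    _ = t := by field_simp

/-- The mean is continuous for coordinatewise convergence of uniformly admissible tilts. -/
lemma tendsto_mean {g : ℕ → S → ℝ} (ag : ∀ n, Adm η (g n)) (a : Adm η h)
    (hg : ∀ w, Tendsto (fun n => g n w) atTop (𝓝 (h w))) (v : S) :
    Tendsto (fun n => mean C (g n) v) atTop (𝓝 (mean C h v)) := by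
  set r := rvec C h v
  have hr : Tendsto (fun n => rvec C (g n) v v) atTop (𝓝 (r v)) := by
    have dc : Tendsto (fun n => ∑' w, (g n w - h w) ^ 2 * r w ^ 2) atTop (𝓝 0) := by
      have := tendsto_tsum_of_dominated_convergence (𝓕 := atTop)
        (f := fun n w => (g n w - h w) ^ 2 * r w ^ 2) (g := fun _ : S => (0 : ℝ))
        (bound := fun w => 4 * r w ^ 2) ((hasSum_sq r).summable.mul_left 4)
        (fun w => by simpa using (((hg w).sub_const (h w)).pow 2).mul_const (r w ^ 2))
        (Eventually.of_forall fun n w => by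
          rw [Real.norm_eq_abs, abs_of_nonneg (by positivity)]
          refine mul_le_mul_of_nonneg_right ?_ (sq_nonneg _)
          obtain ⟨p, q⟩ := _root_.abs_lt.mp ((ag n).abs_lt w)
          obtain ⟨p', q'⟩ := _root_.abs_lt.mp (a.abs_lt w)
          nlinarith)
      simpa using this
    rw [Metric.tendsto_atTop]
    intro ε hε
    set s := ε * η ^ 2 with hs'
    have hη := a.1
    have hspos : 0 < s := by positivity
    obtain ⟨N, hN⟩ := eventually_atTop.mp (dc.eventually_lt_const (mul_pos hε hspos))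
    refine ⟨N, fun n hn => ?_⟩
    have hs := hasSum_rvec_sub (C := C) a (ag n) v
    have hsum : Summable fun w => (g n w - h w) ^ 2 * r w ^ 2 := by
      refine Summable.of_nonneg_of_le (fun w => by positivity) (fun w => ?_)
        ((hasSum_sq r).summable.mul_left 4)
      refine mul_le_mul_of_nonneg_right ?_ (sq_nonneg _)
      obtain ⟨p, q⟩ := _root_.abs_lt.mp ((ag n).abs_lt w)
      obtain ⟨p', q'⟩ := _root_.abs_lt.mp (a.abs_lt w)
      nlinarith
    have hq := hasSum_sq (rvec C (g n) v)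
    have hb := (hsum.hasSum.mul_left (1 / (2 * s))).add (hq.mul_left (s / 2))
    have hterm : ∀ w, |r w * ((g n w - h w) * rvec C (g n) v w)| ≤
        1 / (2 * s) * ((g n w - h w) ^ 2 * r w ^ 2) + s / 2 * rvec C (g n) v w ^ 2 := fun w => by
      rw [show r w * ((g n w - h w) * rvec C (g n) v w) =
        ((g n w - h w) * r w) * rvec C (g n) v w by ring, ← mul_pow]
      set A := (g n w - h w) * r w
      set B := rvec C (g n) v w
      rw [abs_mul, ← sub_nonneg, show 1 / (2 * s) * A ^ 2 + s / 2 * B ^ 2 - |A| * |B| =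
        1 / (2 * s) * (|A| - s * |B|) ^ 2 by
          field_simp; rw [← sq_abs A, ← sq_abs B]; ring]
      positivity
    have hbd : |r v - rvec C (g n) v v| ≤ 1 / (2 * s) * ∑' w, (g n w - h w) ^ 2 * r w ^ 2 +
        s / 2 * ‖rvec C (g n) v‖ ^ 2 := by
      refine abs_le.mpr ⟨?_, hasSum_le (fun w => (le_abs_self _).trans (hterm w)) hs hb⟩
      have := hasSum_le (fun w => (neg_le_abs _).trans (hterm w)) hs.neg hb
      linarith
    have hn2 : ‖rvec C (g n) v‖ ^ 2 ≤ (1 / η) ^ 2 :=
      pow_le_pow_left₀ (norm_nonneg _) (norm_rvec_le (ag n) v) 2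
    rw [Real.dist_eq, abs_sub_comm]
    refine hbd.trans_lt ?_
    have h1 : 1 / (2 * s) * ∑' w, (g n w - h w) ^ 2 * r w ^ 2 < ε / 2 := by
      refine (mul_lt_mul_of_pos_left (hN n hn) (by positivity)).trans_eq ?_
      field_simp
    have h2 : s / 2 * ‖rvec C (g n) v‖ ^ 2 ≤ ε / 2 := by
      refine (mul_le_mul_of_nonneg_left hn2 (by positivity)).trans_eq ?_
      rw [hs']; field_simp
    linarith
  exact (hg v).add ((tendsto_const_nhds.sub ((hg v).pow 2)).mul hr)

/-- A tilt supported in `A` gives a finite linear system. -/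
lemma zvec_eq_zero (a : Adm η h) {v w : S} (hw : h w = 0) (hwv : w ≠ v) : zvec C h v w = 0 := by
  have := zvec_coord (C := C) a v w
  rw [hw, bas_ne hwv] at this
  simpa using this

lemma op_zvec_eq_sum (a : Adm η h) {A : Finset S} (hA : ∀ w, w ∉ A → h w = 0) {v : S}
    (hv : v ∈ A) (u : S) :
    rvec C h v u = ∑ w ∈ A, C.ent u w * zvec C h v w := by
  have e : zvec C h v = ∑ w ∈ A, zvec C h v w • bas w := by
    ext x
    rw [lp.coeFn_sum, Finset.sum_apply]
    simp only [lp.coeFn_smul, Pi.smul_apply, smul_eq_mul]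
    by_cases hx : x ∈ A
    · rw [Finset.sum_eq_single_of_mem x hx fun w _ hw => by rw [bas_ne (Ne.symm hw), mul_zero],
        bas_self, mul_one]
    · rw [Finset.sum_eq_zero fun w hw => by
        rw [bas_ne (fun e => hx (by rwa [e])), mul_zero],
        zvec_eq_zero a (hA x hx) (fun e => hx (e ▸ hv))]
  conv_lhs => rw [rvec, e]
  rw [map_sum, lp.coeFn_sum, Finset.sum_apply]
  refine Finset.sum_congr rfl fun w _ => ?_
  rw [map_smul, lp.coeFn_smul, Pi.smul_apply, smul_eq_mul, Kern.ent, mul_comm]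

end Vale.Agent.P143
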