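import Vale.Agent.P143.Kernel
import Vale.Agent.P161.Sampler

/-!
# The sequential sampler as a contraction in infinite volume
-/

open Filter Topology unitInterval Function

namespace Vale.Agent.P143

open Vale.Agent.P161 (invCdf invCdf_dist continuous_invCdf)

variable {S : Type*} [DecidableEq S]

/-- The strength of one observation. -/
noncomputable def eps : ℝ := 1 / 8

/-- An observation, centred. -/
def zval (y : I) : ℝ := 2 * (y : ℝ) - 1

lemma abs_zval_le (y : I) : |zval y| ≤ 1 :=
  abs_le.mpr ⟨by linarith [y.2.1, show zval y = 2 * (y : ℝ) - 1 from rfl],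
    by linarith [y.2.2, show zval y = 2 * (y : ℝ) - 1 from rfl]⟩

lemma continuous_zval : Continuous zval := by unfold zval; fun_prop

/-- The tilt after one more observation. -/
noncomputable def upd (g z : ℝ) : ℝ := (g + eps * z) / (1 + eps * z * g)

lemma denom_ge {g z : ℝ} (hg : |g| ≤ 1) (hz : |z| ≤ 1) :
    7 / 8 ≤ 1 + eps * z * g ∧ 1 + eps * z * g ≤ 9 / 8 := by
  have : |z * g| ≤ 1 := by
    rw [abs_mul]; exact mul_le_one₀ hz (abs_nonneg _) hg
  obtain ⟨a, b⟩ := abs_le.mp this
  simp only [eps]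
  constructor <;> linarith

lemma one_sub_upd {g z : ℝ} (hg : |g| ≤ 1) (hz : |z| ≤ 1) :
    3 / 4 * (1 - |g|) ≤ 1 - |upd g z| := by
  obtain ⟨d1, d2⟩ := denom_ge hg hz
  obtain ⟨z1, z2⟩ := abs_le.mp hz
  obtain ⟨g1, g2⟩ := abs_le.mp hg
  have key : |upd g z| ≤ 1 - 3 / 4 * (1 - |g|) := by
    rw [upd, abs_div, abs_of_pos (by linarith : 0 < 1 + eps * z * g),
      div_le_iff₀ (by linarith), abs_le]
    simp only [eps] at *
    have p1 := mul_nonneg (show (0 : ℝ) ≤ 1 - g by linarith) (show (0 : ℝ) ≤ 1 + z by linarith)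
    have p2 := mul_nonneg (show (0 : ℝ) ≤ 1 - g by linarith) (show (0 : ℝ) ≤ 1 - z by linarith)
    have p3 := mul_nonneg (show (0 : ℝ) ≤ 1 + g by linarith) (show (0 : ℝ) ≤ 1 + z by linarith)
    have p4 := mul_nonneg (show (0 : ℝ) ≤ 1 + g by linarith) (show (0 : ℝ) ≤ 1 - z by linarith)
    rcases abs_cases g with ⟨hg', hs⟩ | ⟨hg', hs⟩ <;> rw [hg'] <;> constructor
    · nlinarith [mul_nonneg hs (show (0 : ℝ) ≤ 7 / 8 by norm_num),
        mul_le_mul_of_nonneg_left d1 (show (0 : ℝ) ≤ 1 / 4 + 3 / 4 * g by linarith)]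
    · nlinarith [mul_nonneg p2 hs, mul_nonneg (show (0 : ℝ) ≤ 1 - g by linarith) hs]
    · nlinarith [mul_nonneg p3 (neg_nonneg.mpr hs.le),
        mul_nonneg (show (0 : ℝ) ≤ 1 + g by linarith) (neg_nonneg.mpr hs.le)]
    · nlinarith [mul_nonneg (neg_nonneg.mpr hs.le) (show (0 : ℝ) ≤ 7 / 8 by norm_num),
        mul_le_mul_of_nonneg_left d1 (show (0 : ℝ) ≤ 1 / 4 - 3 / 4 * g by linarith)]
  linarith

lemma abs_upd_le {g z η : ℝ} (hη : 0 ≤ η) (hg : |g| ≤ 1 - η) (hz : |z| ≤ 1) :
    |upd g z| ≤ 1 - 3 / 4 * η := by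
  have := one_sub_upd (show |g| ≤ 1 by linarith) hz
  linarith

lemma abs_upd_sub {g z z' : ℝ} (hg : |g| ≤ 1) (hz : |z| ≤ 1) (hz' : |z'| ≤ 1) :
    |upd g z' - upd g z| ≤ |z' - z| / 4 * (1 - upd g z ^ 2) := by
  obtain ⟨a1, a2⟩ := denom_ge hg hz
  obtain ⟨b1, b2⟩ := denom_ge hg hz'
  set a := 1 + eps * z * g
  set b := 1 + eps * z' * g
  have hg2 : 0 ≤ 1 - g ^ 2 := by obtain ⟨p, q⟩ := abs_le.mp hg; nlinarith
  have hz2 : 63 / 64 ≤ 1 - eps ^ 2 * z ^ 2 := by
    obtain ⟨p, q⟩ := abs_le.mp hz; simp only [eps]; nlinarith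
  have ha : 0 < a := by linarith
  have hb : 0 < b := by linarith
  have ha' : a ≠ 0 := ha.ne'
  have hb' : b ≠ 0 := hb.ne'
  have e1 : upd g z' - upd g z = (z' - z) * (eps * (1 - g ^ 2) / (a * b)) := by
    rw [upd, upd, div_sub_div _ _ hb' ha', mul_comm a b, mul_div_assoc']
    congr 1
    ring
  have e2 : 1 - upd g z ^ 2 = (1 - g ^ 2) * (1 - eps ^ 2 * z ^ 2) / a ^ 2 := by
    rw [upd, div_pow, eq_div_iff (pow_ne_zero 2 ha'), sub_mul,
      div_mul_cancel₀ _ (pow_ne_zero 2 ha')]
    ring
  rw [e1, e2, abs_mul, abs_of_nonneg (by unfold eps; positivity : 0 ≤ eps * (1 - g ^ 2) / (a * b)),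
    show |z' - z| / 4 * ((1 - g ^ 2) * (1 - eps ^ 2 * z ^ 2) / a ^ 2) =
      |z' - z| * ((1 - g ^ 2) * ((1 - eps ^ 2 * z ^ 2) / 4) / a ^ 2) by ring]
  refine mul_le_mul_of_nonneg_left ?_ (abs_nonneg _)
  rw [div_le_div_iff₀ (by positivity) (by positivity)]
  have key : eps * a ≤ (1 - eps ^ 2 * z ^ 2) / 4 * b := by
    rw [show eps * a = a / 8 by simp [eps]; ring]
    nlinarith
  nlinarith [mul_le_mul_of_nonneg_left key (mul_nonneg hg2 ha.le)]

variable (C : Kern S) (lt : S → S → Prop) (A : Set S)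

open Classical in
/-- The tilt seen at `s` inside a round. -/
noncomputable def hIn (g : S → ℝ) (y : S → I) (s : S) : S → ℝ := fun w =>
  if lt w s ∧ w ∈ A then upd (g w) (zval (y w)) else g w

/-- One pass over a round. -/
noncomputable def stepF (g : S → ℝ) (u y : S → I) : S → I := fun s =>
  invCdf (eps * mean C (hIn lt A g y s) s) (u s)

/-- Iterated passes over a round. -/
noncomputable def picard (g : S → ℝ) (u : S → I) : ℕ → S → I
  | 0 => u
  | n + 1 => stepF C lt A g u (picard g u n)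

/-- The readings of one round. -/
noncomputable def roundOut (g : S → ℝ) (u : S → I) : S → I := fun s =>
  limUnder atTop fun n => picard C lt A g u n s

open Classical in
/-- The tilt after `k` rounds. -/
noncomputable def state (u : S × ℕ → I) : ℕ → S → ℝ
  | 0 => fun _ => 0
  | k + 1 => fun w =>
      if w ∈ A then upd (state u k w) (zval (roundOut C lt A (state u k) (fun s => u (s, k)) w))
      else state u k w

/-- All readings. -/
noncomputable def smp (u : S × ℕ → I) (j : S × ℕ) : I :=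
  roundOut C lt A (state C lt A u j.2) (fun s => u (s, j.2)) j.1

variable {C lt A}

lemma adm_hIn {η : ℝ} {g : S → ℝ} (a : Adm η g) (y : S → I) (s : S) :
    Adm (3 / 4 * η) (hIn lt A g y s) := by
  refine ⟨by linarith [a.1], by linarith [a.2.1, a.1], fun w => ?_⟩
  unfold hIn
  split_ifs
  · exact abs_upd_le a.1.le (a.2.2 w) (abs_zval_le _)
  · linarith [a.2.2 w, a.1]

variable (hirr : ∀ s, ¬ lt s s)

section Contraction

variable {η : ℝ} {g : S → ℝ} (a : Adm η g)
include hirr a

lemma stepF_dist (u : S → I) {y y' : S → I} {D : ℝ} (hD : ∀ w, |(y w : ℝ) - y' w| ≤ D) (s : S) :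
    |(stepF C lt A g u y s : ℝ) - stepF C lt A g u y' s| ≤ D / 2 := by
  have hD0 : 0 ≤ D := (abs_nonneg _).trans (hD s)
  have hb : ∀ (w : S) (p q : S → I), (∀ x, |(p x : ℝ) - q x| ≤ D) →
      |hIn lt A g q s w - hIn lt A g p s w| ≤ D / 2 * (1 - hIn lt A g p s w ^ 2) := by
    intro w p q hpq
    have hp := ((adm_hIn (lt := lt) (A := A) a p s).sq_lt w).le
    by_cases hc : lt w s ∧ w ∈ A
    · simp only [hIn, if_pos hc] at hp ⊢
      refine (abs_upd_sub (a.abs_lt w).le (abs_zval_le _) (abs_zval_le _)).trans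
        (mul_le_mul_of_nonneg_right ?_ hp)
      have := hpq w
      rw [abs_sub_comm] at this
      simp only [zval]
      rw [show 2 * (q w : ℝ) - 1 - (2 * (p w : ℝ) - 1) = 2 * ((q w : ℝ) - p w) by ring, abs_mul,
        abs_two]
      linarith
    · simp only [hIn, if_neg hc] at hp ⊢
      rw [sub_self, abs_zero]
      exact mul_nonneg (by linarith) hp
  have hm := abs_mean_sub_le (C := C) (adm_hIn (lt := lt) (A := A) a y s)
    (adm_hIn (lt := lt) (A := A) a y' s) s (by simp [hIn, hirr s]) (t := D / 2) (by linarith)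
    (fun w => hb w y y' hD) (fun w => by
      rw [abs_sub_comm]; exact hb w y' y fun x => by rw [abs_sub_comm]; exact hD x)
  refine (invCdf_dist _ _ _ _).trans ?_
  rw [sub_self, abs_zero, zero_add, ← mul_sub, abs_mul, show |eps| = 1 / 8 by norm_num [eps]]
  linarith

lemma picard_succ_dist (u : S → I) (n : ℕ) :
    ∀ s, |(picard C lt A g u n s : ℝ) - picard C lt A g u (n + 1) s| ≤ (1 / 2) ^ n := by
  induction n with
  | zero =>
    intro s
    rw [pow_zero, abs_le]
    exact ⟨by linarith [(picard C lt A g u 0 s).2.1, (picard C lt A g u (0 + 1) s).2.2],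
      by linarith [(picard C lt A g u 0 s).2.2, (picard C lt A g u (0 + 1) s).2.1]⟩
  | succ n ih =>
    intro s
    refine (stepF_dist hirr a u ih s).trans_eq ?_
    rw [pow_succ]; ring

lemma tendsto_roundOut (u : S → I) (s : S) :
    Tendsto (fun n => picard C lt A g u n s) atTop (𝓝 (roundOut C lt A g u s)) := by
  refine CauchySeq.tendsto_limUnder (cauchySeq_of_le_geometric (1 / 2) 1 (by norm_num) fun n => ?_)
  rw [Subtype.dist_eq, Real.dist_eq, one_mul]
  exact picard_succ_dist hirr a u n s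

lemma picard_dist_round (u : S → I) (n : ℕ) (s : S) :
    |(picard C lt A g u n s : ℝ) - roundOut C lt A g u s| ≤ 2 * (1 / 2) ^ n := by
  have := dist_le_of_le_geometric_of_tendsto (1 / 2) 1 (by norm_num) (fun n => by
    rw [Subtype.dist_eq, Real.dist_eq, one_mul]
    exact picard_succ_dist (C := C) (A := A) hirr a u n s)
    (tendsto_roundOut (C := C) (A := A) hirr a u s) n
  rw [Subtype.dist_eq, Real.dist_eq] at this
  refine this.trans_eq ?_
  ring

lemma roundOut_fixed (u : S → I) :
    stepF C lt A g u (roundOut C lt A g u) = roundOut C lt A g u := by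
  funext s
  refine tendsto_nhds_unique ?_ ((tendsto_roundOut hirr a u s).comp (tendsto_add_atTop_nat 1))
  refine tendsto_iff_dist_tendsto_zero.mpr (squeeze_zero (fun n => dist_nonneg) (fun n => ?_)
    ((tendsto_pow_atTop_nhds_zero_of_lt_one (by norm_num : (0:ℝ) ≤ 1/2) (by norm_num))))
  rw [Subtype.dist_eq, Real.dist_eq]
  refine (stepF_dist hirr a u (picard_dist_round hirr a u n) s).trans_eq ?_
  ring

end Contraction

include hirr

lemma adm_state (u : S × ℕ → I) (k : ℕ) : Adm ((3 / 4 : ℝ) ^ k) (state C lt A u k) := by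
  induction k with
  | zero => exact ⟨by norm_num, by norm_num, fun s => by simp [state]⟩
  | succ k ih =>
    refine ⟨by positivity, pow_le_one₀ (by norm_num) (by norm_num), fun w => ?_⟩
    simp only [state, pow_succ]
    split_ifs
    · refine (abs_upd_le ih.1.le (ih.2.2 w) (abs_zval_le _)).trans_eq ?_
      ring
    · nlinarith [ih.2.2 w, ih.1]

lemma smp_eq (u : S × ℕ → I) (j : S × ℕ) :
    smp C lt A u j = invCdf (eps * mean C
      (hIn lt A (state C lt A u j.2) (fun w => smp C lt A u (w, j.2)) j.1) j.1) (u j) :=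
  (congrFun (roundOut_fixed hirr (adm_state hirr u j.2) fun s => u (s, j.2)) j.1).symm

lemma tendsto_smp_round {un : ℕ → S × ℕ → I} {u : S × ℕ → I}
    (hu : ∀ j, Tendsto (fun n => un n j) atTop (𝓝 (u j))) {An : ℕ → Set S}
    (hA : ∀ w, ∀ᶠ n in atTop, (w ∈ An n ↔ w ∈ A)) (k : ℕ)
    (hs : ∀ w, Tendsto (fun n => state C lt (An n) (un n) k w) atTop
      (𝓝 (state C lt A u k w))) (s : S) :
    Tendsto (fun n => smp C lt (An n) (un n) (s, k)) atTop (𝓝 (smp C lt A u (s, k))) := by
  have pic : ∀ m s, Tendsto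
      (fun n => picard C lt (An n) (state C lt (An n) (un n) k) (fun x => un n (x, k)) m s)
      atTop (𝓝 (picard C lt A (state C lt A u k) (fun x => u (x, k)) m s)) := by
    intro m
    induction m with
    | zero => exact fun s => hu (s, k)
    | succ m ihm =>
      intro s
      refine (continuous_invCdf.tendsto _).comp
        (((tendsto_mean (fun n => adm_hIn (adm_state hirr _ k) _ s)
          (adm_hIn (adm_state hirr _ k) _ s) (fun w => ?_) s).const_mul eps).prodMk_nhds
            (hu (s, k)))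
      have g1 : Tendsto (fun n => upd (state C lt (An n) (un n) k w) (zval (picard C lt (An n)
          (state C lt (An n) (un n) k) (fun x => un n (x, k)) m w))) atTop
          (𝓝 (upd (state C lt A u k w) (zval (picard C lt A (state C lt A u k)
            (fun x => u (x, k)) m w)))) := by
        have hz := (continuous_zval.tendsto _).comp (ihm w)
        exact ((hs w).add (hz.const_mul eps)).div
          (tendsto_const_nhds.add ((hz.const_mul eps).mul (hs w)))
          (by linarith [(denom_ge ((adm_state (C := C) (A := A) hirr u k).abs_lt w).le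
            (abs_zval_le (picard C lt A (state C lt A u k) (fun x => u (x, k)) m w))).1])
      by_cases hc : lt w s ∧ w ∈ A
      · simp only [hIn, if_pos hc]
        exact g1.congr' ((hA w).mono fun n hn => (if_pos ⟨hc.1, hn.mpr hc.2⟩).symm)
      · simp only [hIn, if_neg hc]
        exact (hs w).congr' ((hA w).mono fun n hn =>
          (if_neg fun e => hc ⟨e.1, hn.mp e.2⟩).symm)
  rw [Metric.tendsto_atTop]
  intro δ hδ
  obtain ⟨m, hm⟩ := exists_pow_lt_of_lt_one (show 0 < δ / 8 by positivity)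
    (show (1 / 2 : ℝ) < 1 by norm_num)
  obtain ⟨N, hN⟩ := Metric.tendsto_atTop.mp (pic m s) (δ / 4) (by positivity)
  refine ⟨N, fun n hn => ?_⟩
  have e1 := picard_dist_round (C := C) (A := An n) hirr
    (adm_state (C := C) (A := An n) hirr (un n) k)
    (fun x => un n (x, k)) m s
  have e2 := picard_dist_round (C := C) (A := A) hirr (adm_state (C := C) (A := A) hirr u k)
    (fun x => u (x, k)) m s
  have e3 := hN n hn
  rw [Subtype.dist_eq, Real.dist_eq] at e3 ⊢
  simp only [smp]
  obtain ⟨p1, q1⟩ := abs_le.mp e1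
  obtain ⟨p2, q2⟩ := abs_le.mp e2
  obtain ⟨p3, q3⟩ := abs_lt.mp e3
  rw [abs_lt]
  constructor <;> linarith

/-- Stability under coordinatewise convergence of inputs and eventual agreement of windows. -/
lemma tendsto_smp {un : ℕ → S × ℕ → I} {u : S × ℕ → I}
    (hu : ∀ j, Tendsto (fun n => un n j) atTop (𝓝 (u j))) {An : ℕ → Set S}
    (hA : ∀ w, ∀ᶠ n in atTop, (w ∈ An n ↔ w ∈ A)) :
    ∀ k, (∀ w, Tendsto (fun n => state C lt (An n) (un n) k w) atTop
        (𝓝 (state C lt A u k w))) ∧
      ∀ s, Tendsto (fun n => smp C lt (An n) (un n) (s, k)) atTop (𝓝 (smp C lt A u (s, k))) := by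
  intro k
  suffices hs : ∀ w, Tendsto (fun n => state C lt (An n) (un n) k w) atTop
      (𝓝 (state C lt A u k w)) from ⟨hs, tendsto_smp_round hirr hu hA k hs⟩
  induction k with
  | zero => exact fun w => tendsto_const_nhds
  | succ k ih =>
    intro w
    have hr := tendsto_smp_round hirr hu hA k ih
    simp only [state]
    by_cases hw : w ∈ A
    · rw [if_pos hw]
      have hz := (continuous_zval.tendsto _).comp (hr w)
      refine Tendsto.congr' ((hA w).mono fun n hn => (if_pos (hn.mpr hw)).symm) ?_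
      exact ((ih w).add (hz.const_mul eps)).div
        (tendsto_const_nhds.add ((hz.const_mul eps).mul (ih w)))
        (by linarith [(denom_ge ((adm_state (C := C) (A := A) hirr u k).abs_lt w).le
          (abs_zval_le (roundOut C lt A (state C lt A u k) (fun s => u (s, k)) w))).1])
    · rw [if_neg hw]
      exact (ih w).congr' ((hA w).mono fun n hn => (if_neg fun e => hw (hn.mp e)).symm)

end Vale.Agent.P143
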