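import Vale.Agent.P143.Finite
import Vale.Agent.P143.Sampler
import Vale.Agent.P161.Rounds

/-!
# The law of the readings
-/

open Filter Topology unitInterval Function MeasureTheory

namespace Vale.Agent.P143

open Vale.Agent.P161 (spin spin_cases lik rv rv_mem lik_pos lik_congr_obs iidLabels invCdf
  continuous_invCdf continuous_lik integral_avgOne avgOne integral_invCdf integrable_of_continuous)

variable {S : Type*}

/-- `i` is revealed before `j`. -/
def Before (lt : S → S → Prop) (i j : S × ℕ) : Prop := i.2 < j.2 ∨ (i.2 = j.2 ∧ lt i.1 j.1)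

open Classical in
/-- The readings revealed before `j` in a window. -/
noncomputable def past (lt : S → S → Prop) (A : Finset S) (j : S × ℕ) : Finset (S × ℕ) :=
  (A ×ˢ Finset.range (j.2 + 1)).filter fun i => Before lt i j

variable {lt : S → S → Prop} {A : Finset S}

lemma mem_past {i j : S × ℕ} : i ∈ past lt A j ↔ i.1 ∈ A ∧ Before lt i j := by
  classical
  unfold past
  rw [Finset.mem_filter, Finset.mem_product, Finset.mem_range]
  unfold Before
  constructor
  · rintro ⟨⟨h, -⟩, h'⟩; exact ⟨h, h'⟩
  · rintro ⟨h, h'⟩; exact ⟨⟨h, by omega⟩, h'⟩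

/-- A strict total order. -/
structure Order (lt : S → S → Prop) : Prop where
  irr : ∀ s, ¬ lt s s
  trans : ∀ a b c, lt a b → lt b c → lt a c
  tri : ∀ a b, lt a b ∨ a = b ∨ lt b a

variable (ho : Order lt)
include ho

lemma not_before_self (j : S × ℕ) : ¬ Before lt j j := by
  rintro (h | ⟨-, h⟩)
  · exact lt_irrefl _ h
  · exact ho.irr _ h

lemma before_trans {a b c : S × ℕ} (h : Before lt a b) (h' : Before lt b c) : Before lt a c := by
  rcases h with h | ⟨h, h2⟩ <;> rcases h' with h' | ⟨h', h2'⟩
  · exact Or.inl (h.trans h')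
  · exact Or.inl (h' ▸ h)
  · exact Or.inl (h ▸ h')
  · exact Or.inr ⟨h.trans h', ho.trans _ _ _ h2 h2'⟩

lemma past_subset {i j : S × ℕ} (h : i ∈ past lt A j) : past lt A i ⊆ past lt A j := fun a ha => by
  rw [mem_past] at *
  exact ⟨ha.1, before_trans ho ha.2 h.2⟩

lemma card_past_lt {i j : S × ℕ} (h : i ∈ past lt A j) :
    (past lt A i).card < (past lt A j).card :=
  Finset.card_lt_card ⟨past_subset ho h,
    fun hh => not_before_self ho i (mem_past.mp (hh h)).2⟩

lemma past_induction {P : S × ℕ → Prop} (h : ∀ j, (∀ i ∈ past lt A j, P i) → P j) (j : S × ℕ) :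
    P j := by
  induction hn : (past lt A j).card using Nat.strong_induction_on generalizing j with
  | _ n ih => exact h j fun i hi => ih _ (hn ▸ card_past_lt ho hi) i rfl

omit ho

section Tilt

variable [DecidableEq S]

/-- The likelihood of spin `s` at `w`. -/
noncomputable def pp (T : Finset (S × ℕ)) (y : S × ℕ → I) (s : ℝ) (w : S) : ℝ :=
  ∏ j ∈ T.filter (fun j => j.1 = w), (1 + eps * s * zval (y j))

/-- The tilt made by the readings in `T`. -/
noncomputable def tilt (T : Finset (S × ℕ)) (y : S × ℕ → I) (w : S) : ℝ :=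
  (pp T y 1 w - pp T y (-1) w) / (pp T y 1 w + pp T y (-1) w)

lemma pp_pos (T : Finset (S × ℕ)) (y : S × ℕ → I) {s : ℝ} (hs : |s| ≤ 1) (w : S) :
    0 < pp T y s w := by
  refine Finset.prod_pos fun j _ => ?_
  linarith [(denom_ge (g := zval (y j)) (z := s) (abs_zval_le _) hs).1]

lemma tilt_congr {T T' : Finset (S × ℕ)} {y y' : S × ℕ → I} {w : S}
    (h : T.filter (fun j => j.1 = w) = T'.filter (fun j => j.1 = w))
    (hy : ∀ j ∈ T, y j = y' j) : tilt T y w = tilt T' y' w := by
  have e : ∀ s, pp T y s w = pp T' y' s w := fun s => by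
    rw [pp, pp, ← h]
    exact Finset.prod_congr rfl fun j hj => by rw [hy j (Finset.mem_filter.mp hj).1]
  rw [tilt, tilt, e, e]

lemma tilt_insert {T : Finset (S × ℕ)} {j : S × ℕ} (hj : j ∉ T) (y : S × ℕ → I) :
    tilt (insert j T) y j.1 = upd (tilt T y j.1) (zval (y j)) := by
  have hp := pp_pos T y (s := 1) (by norm_num) j.1
  have hm := pp_pos T y (s := -1) (by norm_num) j.1
  have e : ∀ s, pp (insert j T) y s j.1 = (1 + eps * s * zval (y j)) * pp T y s j.1 := fun s => by
    unfold pp
    rw [Finset.filter_insert, if_pos rfl,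
      Finset.prod_insert (fun h => hj (Finset.mem_filter.mp h).1)]
  rw [tilt, e, e, upd, tilt]
  set P := pp T y 1 j.1
  set Q := pp T y (-1) j.1
  rw [show (P - Q) / (P + Q) + eps * zval (y j) =
      ((P - Q) + eps * zval (y j) * (P + Q)) / (P + Q) by field_simp,
    show 1 + eps * zval (y j) * ((P - Q) / (P + Q)) =
      ((P + Q) + eps * zval (y j) * (P - Q)) / (P + Q) by field_simp,
    div_div_div_cancel_right₀ (by linarith)]
  congr 1 <;> ring

lemma tilt_of_not_mem {T : Finset (S × ℕ)} {w : S} (h : ∀ j ∈ T, j.1 ≠ w) (y : S × ℕ → I) :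
    tilt T y w = 0 := by
  simp [tilt, pp, Finset.filter_false_of_mem h]

lemma adm_tilt (T : Finset (S × ℕ)) (y : S × ℕ → I) :
    Adm ((3 / 4 : ℝ) ^ T.card) (tilt T y) := by
  induction T using Finset.induction_on with
  | empty =>
    exact ⟨by norm_num, by norm_num, fun s => by simp [tilt, pp]⟩
  | @insert j T hj ih =>
    refine ⟨by positivity, pow_le_one₀ (by norm_num) (by norm_num), fun w => ?_⟩
    rw [Finset.card_insert_of_notMem hj, pow_succ]
    by_cases hw : j.1 = w
    · subst hw
      rw [tilt_insert hj]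
      refine (abs_upd_le ih.1.le (ih.2.2 _) (abs_zval_le _)).trans_eq ?_
      ring
    · rw [tilt_congr (T' := T) (y' := y) (by rw [Finset.filter_insert, if_neg hw])
        (fun _ _ => rfl)]
      nlinarith [ih.2.2 w, ih.1]

lemma lik_eq {T : Finset (S × ℕ)} (hT : ∀ j ∈ T, j.1 ∈ A) (τ : S → Bool) (y : S × ℕ → I) :
    lik eps T τ (rv y) = (∏ w ∈ A, (pp T y 1 w + pp T y (-1) w) / 2) *
      ∏ w ∈ A, (1 + spin (τ w) * tilt T y w) := by
  rw [← Finset.prod_mul_distrib, lik, ← Finset.prod_fiberwise_of_maps_to hT]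
  refine Finset.prod_congr rfl fun w _ => ?_
  have hp := pp_pos T y (s := 1) (by norm_num) w
  have hm := pp_pos T y (s := -1) (by norm_num) w
  have e : ∏ i ∈ T with i.1 = w, (1 + eps * spin (τ i.1) * (2 * rv y i - 1)) =
      pp T y (spin (τ w)) w := Finset.prod_congr rfl fun i hi => by
    rw [(Finset.mem_filter.mp hi).2]; rfl
  rw [e, tilt]
  rcases spin_cases (τ w) with h | h <;> rw [h] <;> field_simp <;> ring

end Tilt

variable [DecidableEq S] (C : Kern S)

/-- Marginal density of the readings in `T`. -/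
noncomputable def dens (A : Finset S) (T : Finset (S × ℕ)) (y : S × ℕ → I) : ℝ :=
  Ev C A fun τ => lik eps T τ (rv y)

omit [DecidableEq S] in
lemma eps_pos : 0 < eps := by unfold eps; norm_num

omit [DecidableEq S] in
lemma eps_le : eps ≤ 1 / 4 := by unfold eps; norm_num

lemma Ev_lik_spin {T : Finset (S × ℕ)} (hT : ∀ j ∈ T, j.1 ∈ A) {v : S} (hv : v ∈ A)
    (y : S × ℕ → I) :
    Ev C A (fun τ => lik eps T τ (rv y) * spin (τ v)) =
      mean C (tilt T y) v * dens C A T y := by
  have h0 : ∀ w, w ∉ A → tilt T y w = 0 := fun w hw =>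
    tilt_of_not_mem (fun j hj e => hw (by rw [← e]; exact hT j hj)) y
  simp only [dens, lik_eq hT, mul_assoc, Ev_const_mul, Ev_prod]
  rw [Ev_prod_spin C (adm_tilt T y) h0 hv]
  ring

lemma dens_pos (T : Finset (S × ℕ)) (y : S × ℕ → I) : 0 < dens C A T y := by
  classical
  have h := fun τ : S → Bool =>
    lik_pos (S := T) eps_pos.le (by linarith [eps_le]) (rv_mem y) τ
  obtain ⟨τ, -, hτ⟩ := Finset.exists_ne_zero_of_sum_ne_zero
    (show ∑ η : A → Bool, qw C A η * 1 ≠ 0 from by
      rw [show (∑ η : A → Bool, qw C A η * 1) = Ev C A fun _ => 1 from rfl, Ev_one]; norm_num)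
  refine Finset.sum_pos' (fun η _ => mul_nonneg (qw_nonneg C A η) (h _).le)
    ⟨τ, Finset.mem_univ _, mul_pos ?_ (h _)⟩
  rw [mul_one] at hτ
  exact (qw_nonneg C A τ).lt_of_ne hτ.symm

lemma continuous_dens (T : Finset (S × ℕ)) : Continuous fun y => dens C A T y := by
  unfold dens Ev
  exact continuous_finsetSum _ fun τ _ => continuous_const.mul (continuous_lik T _)

lemma dens_insert {T : Finset (S × ℕ)} (hT : ∀ i ∈ T, i.1 ∈ A) {j : S × ℕ} (hj : j ∉ T)
    (hjA : j.1 ∈ A) (y : S × ℕ → I) (t : I) :
    dens C A (insert j T) (update y j t) =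
      dens C A T y * (1 + eps * mean C (tilt T y) j.1 * (2 * (t : ℝ) - 1)) := by
  have e : ∀ τ : S → Bool, lik eps (insert j T) τ (rv (update y j t)) =
      lik eps T τ (rv y) + eps * (2 * (t : ℝ) - 1) * (lik eps T τ (rv y) * spin (τ j.1)) := by
    intro τ
    have : lik eps T τ (rv (update y j t)) = lik eps T τ (rv y) :=
      lik_congr_obs (fun i hi => by simp [show i ≠ j from fun e => hj (e ▸ hi)]) τ
    simp only [lik] at this ⊢
    rw [Finset.prod_insert hj, this]
    simp only [rv, update_self]
    ring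
  rw [dens, Ev_congr C A e, Ev_add, Ev_const_mul, Ev_lik_spin C hT hjA]
  simp only [dens]
  ring

section Fixed

variable {C}
include ho

lemma state_eq_tilt (u : S × ℕ → I) (k : ℕ) (w : S) :
    state C lt (↑A) u k w = tilt (A ×ˢ Finset.range k) (smp C lt (↑A) u) w := by
  induction k generalizing w with
  | zero => simp [state, tilt, pp]
  | succ k ih =>
    simp only [state]
    by_cases hw : w ∈ A
    · rw [if_pos (Finset.mem_coe.mpr hw), ih]
      rw [show zval (roundOut C lt (↑A) (state C lt (↑A) u k) (fun s => u (s, k)) w) =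
          zval (smp C lt (↑A) u (w, k)) from rfl,
        ← tilt_insert (j := (w, k)) (by simp)]
      refine tilt_congr ?_ (fun _ _ => rfl)
      ext ⟨x, l⟩
      simp only [Finset.mem_filter, Finset.mem_insert, Finset.mem_product, Finset.mem_range,
        Prod.mk.injEq]
      constructor
      · rintro ⟨⟨-, rfl⟩ | ⟨h1, h2⟩, h3⟩
        · exact ⟨⟨h3 ▸ hw, by omega⟩, h3⟩
        · exact ⟨⟨h1, by omega⟩, h3⟩
      · rintro ⟨⟨h1, h2⟩, h3⟩
        refine ⟨?_, h3⟩
        rcases Nat.lt_succ_iff_lt_or_eq.mp h2 with h | h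
        · exact Or.inr ⟨h1, h⟩
        · exact Or.inl ⟨h3, h⟩
    · rw [if_neg (fun h => hw (Finset.mem_coe.mp h)), ih, tilt_of_not_mem, tilt_of_not_mem]
      · exact fun j hj e => hw (e ▸ (Finset.mem_product.mp hj).1)
      · exact fun j hj e => hw (e ▸ (Finset.mem_product.mp hj).1)

lemma smp_finite (u : S × ℕ → I) (j : S × ℕ) :
    smp C lt (↑A) u j =
      invCdf (eps * mean C (tilt (past lt A j) (smp C lt (↑A) u)) j.1) (u j) := by
  classical
  obtain ⟨s, k⟩ := j
  have e : hIn lt (↑A) (state C lt (↑A) u k) (fun w => smp C lt (↑A) u (w, k)) s =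
      tilt (past lt A (s, k)) (smp C lt (↑A) u) := by
    funext w
    simp only [hIn, Finset.mem_coe]
    split_ifs with h
    · rw [state_eq_tilt ho, ← tilt_insert (j := (w, k)) (by simp)]
      refine tilt_congr ?_ (fun _ _ => rfl)
      ext ⟨x, l⟩
      simp only [Finset.mem_filter, Finset.mem_insert, Finset.mem_product, Finset.mem_range,
        Prod.mk.injEq, mem_past, Before]
      constructor
      · rintro ⟨⟨hx, rfl⟩ | ⟨h1, h2⟩, h3⟩
        · exact ⟨⟨h3 ▸ h.2, Or.inr ⟨rfl, h3 ▸ h.1⟩⟩, h3⟩
        · exact ⟨⟨h1, Or.inl h2⟩, h3⟩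
      · rintro ⟨⟨h1, h2 | ⟨h2, -⟩⟩, h3⟩
        · exact ⟨Or.inr ⟨h1, h2⟩, h3⟩
        · exact ⟨Or.inl ⟨h3, h2⟩, h3⟩
    · rw [state_eq_tilt ho]
      refine tilt_congr ?_ (fun _ _ => rfl)
      ext ⟨x, l⟩
      simp only [Finset.mem_filter, Finset.mem_product, Finset.mem_range, mem_past, Before]
      constructor
      · rintro ⟨⟨h1, h2⟩, h3⟩; exact ⟨⟨h1, Or.inl h2⟩, h3⟩
      · rintro ⟨⟨h1, h2 | ⟨h2, h4⟩⟩, h3⟩
        · exact ⟨⟨h1, h2⟩, h3⟩
        · exact absurd ⟨h3 ▸ h4, h3 ▸ h1⟩ h
  rw [smp_eq ho.irr u (s, k), e]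

lemma smp_congr {u u' : S × ℕ → I} :
    ∀ j, u j = u' j → (∀ i ∈ past lt A j, u i = u' i) →
      smp C lt (↑A) u j = smp C lt (↑A) u' j := by
  refine past_induction (A := A) ho fun j ih hj hp => ?_
  rw [smp_finite ho u j, smp_finite ho u' j, hj]
  congr 3
  funext w
  exact tilt_congr rfl fun i hi => ih i hi (hp i hi) fun a ha => hp a (past_subset ho hi ha)

variable [Countable S]

lemma continuous_smp (B : Set S) : Continuous fun u => smp C lt B u := by
  refine continuous_pi fun j => continuous_iff_seqContinuous.mpr fun un u hu => ?_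
  exact (tendsto_smp ho.irr (tendsto_pi_nhds.mp hu) (An := fun _ => B)
    (fun w => Eventually.of_forall fun _ => Iff.rfl) j.2).2 j.1

omit ho [Countable S] in
lemma abs_eps_mean_le (T : Finset (S × ℕ)) (v : S) (y : S × ℕ → I) :
    |eps * mean C (tilt T y) v| ≤ 1 / 2 := by
  rw [abs_mul, abs_of_pos eps_pos]
  have := abs_mean_le (C := C) (adm_tilt T y) v
  simp only [eps]
  linarith

omit ho in
lemma continuous_mean_tilt {T : Finset (S × ℕ)} (hT : ∀ j ∈ T, j.1 ∈ A) {v : S} (hv : v ∈ A) :
    Continuous fun y : S × ℕ → I => mean C (tilt T y) v := by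
  have : (fun y : S × ℕ → I => mean C (tilt T y) v) = fun y =>
      Ev C A (fun τ => lik eps T τ (rv y) * spin (τ v)) / dens C A T y := funext fun y => by
    rw [Ev_lik_spin C hT hv, mul_div_assoc, div_self (dens_pos C T y).ne', mul_one]
  rw [this]
  refine Continuous.div ?_ (continuous_dens C T) fun y => (dens_pos C T y).ne'
  unfold Ev
  exact continuous_finsetSum _ fun τ _ =>
    continuous_const.mul ((continuous_lik T _).mul continuous_const)

/-- In a finite window the sampler has exactly the law of the readings. -/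
lemma integral_smp :
    ∀ T : Finset (S × ℕ), (∀ j ∈ T, j.1 ∈ A) → (∀ j ∈ T, past lt A j ⊆ T) →
      ∀ f : (S × ℕ → I) → ℝ, Continuous f → DependsOn f (T : Set _) →
        ∫ u, f (smp C lt (↑A) u) ∂iidLabels (S × ℕ) =
          ∫ y, f y * dens C A T y ∂iidLabels (S × ℕ) := by
  intro T
  induction T using Finset.strongInduction with
  | _ T ih =>
    intro hTA hcl f hf hfd
    rcases T.eq_empty_or_nonempty with rfl | hne
    · have h1 : ∀ y, dens C A ∅ y = 1 := fun y => by
        simp [dens, lik, Ev_one]
      simp only [h1, mul_one]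
      exact integral_congr_ae (Eventually.of_forall fun u => hfd (by simp))
    · obtain ⟨j, hj, hmax⟩ := T.exists_max_image (fun i => (past lt A i).card) hne
      set T' := T.erase j with hT'
      have hnot : ∀ i ∈ T, j ∉ past lt A i := fun i hi h =>
        absurd (hmax i hi) (not_le.mpr (card_past_lt ho h))
      have hpast : past lt A j = T' := by
        refine Finset.Subset.antisymm (fun i hi => Finset.mem_erase.mpr
          ⟨fun e => not_before_self ho j (mem_past.mp (e ▸ hi)).2, hcl j hj hi⟩) fun i hi => ?_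
        obtain ⟨hij, hiT⟩ := Finset.mem_erase.mp hi
        have hb := hnot i hiT
        rw [mem_past] at hb ⊢
        refine ⟨hTA i hiT, ?_⟩
        have hb : ¬ Before lt j i := fun h => hb ⟨hTA j hj, h⟩
        unfold Before at hb ⊢
        rcases lt_trichotomy i.2 j.2 with h | h | h
        · exact Or.inl h
        · rcases ho.tri i.1 j.1 with h' | h' | h'
          · exact Or.inr ⟨h, h'⟩
          · exact absurd (Prod.ext h' h) hij
          · exact absurd (Or.inr ⟨h.symm, h'⟩) hb
        · exact absurd (Or.inl h) hb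
      have hT'A : ∀ i ∈ T', i.1 ∈ A := fun i hi => hTA i (Finset.mem_of_mem_erase hi)
      set a : (S × ℕ → I) → ℝ := fun y => eps * mean C (tilt T' y) j.1 with ha
      have hac : Continuous a := continuous_const.mul (continuous_mean_tilt hT'A (hTA j hj))
      set g : (S × ℕ → I) → ℝ := fun y => ∫ t : I, f (update y j (invCdf (a y) t)) with hg
      have hgc : Continuous g := by
        have := continuous_parametric_integral_of_continuous (μ := (volume : Measure I))
          (f := fun (y : S × ℕ → I) (t : I) => f (update y j (invCdf (a y) t)))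
          (hf.comp (continuous_fst.update j
            (continuous_invCdf.comp ((hac.comp continuous_fst).prodMk continuous_snd))))
          isCompact_univ
        rw [hg]
        simpa [setIntegral_univ] using this
      have hgd : DependsOn g (T' : Set _) := fun y y' hy => by
        have : a y = a y' := by
          simp only [ha]
          congr 2
          funext w
          exact tilt_congr rfl fun i hi => hy i hi
        simp only [hg, this]
        refine integral_congr_ae (Eventually.of_forall fun t => hfd fun i hi => ?_)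
        by_cases hij : i = j
        · subst hij; simp
        · simpa [hij] using hy i (Finset.mem_erase.mpr ⟨hij, hi⟩)
      have IH := ih T' (Finset.erase_ssubset hj) hT'A
        (fun i hi => hpast ▸ past_subset ho (hpast.symm ▸ hi)) g hgc hgd
      have step1 : ∫ u, f (smp C lt (↑A) u) ∂iidLabels (S × ℕ) =
          ∫ u, g (smp C lt (↑A) u) ∂iidLabels (S × ℕ) := by
        rw [← integral_avgOne j (h := fun u => f (smp C lt (↑A) u)) (hf.comp (continuous_smp ho _))]
        refine integral_congr_ae (Eventually.of_forall fun u => ?_)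
        refine integral_congr_ae (Eventually.of_forall fun t => hfd fun i hi => ?_)
        have hsame : ∀ i ∈ T', smp C lt (↑A) (update u j t) i = smp C lt (↑A) u i := fun i hi =>
          smp_congr ho i (by simp [(Finset.mem_erase.mp hi).1]) fun b hb => by
            have : b ≠ j := fun e => hnot i (Finset.mem_of_mem_erase hi) (e ▸ hb)
            simp [this]
        by_cases hij : i = j
        · subst hij
          rw [update_self, smp_finite ho, update_self]
          simp only [ha]
          rw [hpast]
          congr 3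
          funext w
          exact tilt_congr rfl hsame
        · simpa [hij] using hsame i (Finset.mem_erase.mpr ⟨hij, hi⟩)
      rw [step1, IH, ← integral_avgOne j (h := fun y => f y * dens C A T y)
        (hf.mul (continuous_dens C T))]
      refine integral_congr_ae (Eventually.of_forall fun y => ?_)
      simp only [avgOne, hg]
      rw [integral_invCdf (φ := fun t => f (update y j t)) (abs_eps_mean_le T' j.1 y)
        (hf.comp (continuous_const.update j continuous_id)), ← integral_mul_const]
      refine integral_congr_ae (Eventually.of_forall fun t => ?_)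
      have hins := dens_insert C hT'A (Finset.notMem_erase j T) (hTA j hj) y t
      simp only [hT'] at hins ⊢
      rw [Finset.insert_erase hj] at hins
      simp only [hins, ha]
      ring

lemma integral_smp_mix {D : Finset S} (hDA : D ⊆ A) (K : ℕ) {f : (S × ℕ → I) → ℝ}
    (hf : Continuous f) (hd : DependsOn f ((D ×ˢ Finset.range K : Finset (S × ℕ)) : Set _)) :
    ∫ u, f (smp C lt (↑A) u) ∂iidLabels (S × ℕ) =
      Ev C D fun τ => ∫ y, f y * lik eps (D ×ˢ Finset.range K) τ (rv y) ∂iidLabels (S × ℕ) := by
  set T := A ×ˢ Finset.range K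
  have hsub : D ×ˢ Finset.range K ⊆ T := Finset.product_subset_product_left hDA
  rw [integral_smp ho T (fun j hj => (Finset.mem_product.mp hj).1) (fun j hj i hi => by
      obtain ⟨h1, h2⟩ := mem_past.mp hi
      have h3 := Finset.mem_range.mp (Finset.mem_product.mp hj).2
      refine Finset.mem_product.mpr ⟨h1, Finset.mem_range.mpr ?_⟩
      rcases h2 with h | ⟨h, -⟩ <;> omega)
    f hf (hd.mono (Finset.coe_subset.mpr hsub))]
  rw [← Ev_mono_set C hDA _ (fun τ τ' h => integral_congr_ae (Eventually.of_forall fun y => by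
    refine congrArg (fun x => f y * x) ?_
    exact Finset.prod_congr rfl fun j hj => by rw [h _ (Finset.mem_product.mp hj).1]))]
  simp only [dens, Ev, Finset.mul_sum]
  rw [integral_finsetSum _ fun τ _ => integrable_of_continuous
    (h := fun y => f y * (qw C A τ * lik eps T (ext' A τ) (rv y)))
    (hf.mul (continuous_const.mul (continuous_lik T _)))]
  refine Finset.sum_congr rfl fun τ _ => ?_
  rw [← Vale.Agent.P161.integral_lik_marginal eps (ext' A τ) hsub hf hd, ← integral_const_mul]
  exact integral_congr_ae (Eventually.of_forall fun y => by ring)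

/-- In infinite volume the readings of a window are a mixture over the window. -/
lemma integral_smp_univ (D : Finset S) (K : ℕ) {f : (S × ℕ → I) → ℝ}
    (hf : Continuous f) (hd : DependsOn f ((D ×ˢ Finset.range K : Finset (S × ℕ)) : Set _)) :
    ∫ u, f (smp C lt Set.univ u) ∂iidLabels (S × ℕ) =
      Ev C D fun τ => ∫ y, f y * lik eps (D ×ˢ Finset.range K) τ (rv y) ∂iidLabels (S × ℕ) := by
  classical
  obtain ⟨e, he⟩ := exists_injective_nat S
  set An : ℕ → Finset S := fun n => D ∪ ((Finset.range n).preimage e he.injOn) with hAn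
  have hev : ∀ w, ∀ᶠ n in atTop, (w ∈ (↑(An n) : Set S) ↔ w ∈ (Set.univ : Set S)) := fun w =>
    eventually_atTop.mpr ⟨e w + 1, fun n hn => by
      simp [hAn, Nat.lt_of_succ_le hn]⟩
  obtain ⟨B, hB⟩ := (isCompact_univ.image (continuous_norm.comp hf)).bddAbove
  have lim := tendsto_integral_of_dominated_convergence (μ := iidLabels (S × ℕ))
    (F := fun n u => f (smp C lt (↑(An n)) u)) (fun _ => B)
    (fun n => (hf.comp (continuous_smp ho _)).aestronglyMeasurable) (integrable_const B)
    (fun n => Eventually.of_forall fun u => hB ⟨_, Set.mem_univ _, rfl⟩)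
    (Eventually.of_forall fun u => (hf.tendsto (smp C lt Set.univ u)).comp
      (tendsto_pi_nhds.mpr fun j =>
        (tendsto_smp ho.irr (un := fun _ => u) (fun _ => tendsto_const_nhds) hev j.2).2 j.1))
  refine tendsto_nhds_unique lim (tendsto_const_nhds.congr fun n => ?_)
  exact (integral_smp_mix ho Finset.subset_union_left K hf hd).symm

end Fixed

end Vale.Agent.P143
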