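import Vale.Agent.P143.Forest

/-!
# The free uniform spanning forest is a factor of i.i.d. labels
-/

open Filter Topology unitInterval Function MeasureTheory

namespace Vale.Agent.P143

open Vale.Agent.P161 (spin rho inp iidLabels map_rho_inp measurable_rho_inp)
open scoped Classical

variable {V : Type*} [Countable V]

lemma ae_injective : ∀ᵐ ρ : V → I ∂iidLabels V, Injective ρ := by
  have h : ∀ᵐ ρ : V → I ∂iidLabels V, ∀ v w : V, v ≠ w → ρ v ≠ ρ w := by
    refine ae_all_iff.mpr fun v => ae_all_iff.mpr fun w => ?_
    by_cases hvw : v = w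
    · exact Eventually.of_forall fun _ h => absurd hvw h
    · filter_upwards [Vale.Agent.P161.ae_injOn ({v, w} : Finset V)] with ρ hρ _ he
      exact hvw (hρ (by simp) (by simp) he)
  filter_upwards [h] with ρ hρ v w he
  by_contra hne
  exact hρ v w hne he

variable (G : SimpleGraph V)

omit [Countable V] in
lemma forestOut_false {q : (V → I) × (V × ℕ → I)} {e : Sym2 V} (he : e ∉ G.edgeSet) :
    forestOut (adjFun G) q e = false := by
  refine decide_eq_false ?_
  rintro ⟨s, w, hs, rfl, -⟩
  exact he (adj_of_endp hs).1

variable [G.LocallyFinite]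

/-- For each injective order the cylinder probability is the limit of the tree probabilities. -/
lemma tendsto_section {H : ℕ → G.Subgraph} (hH : IsExhaustion G H) (D : Finset G.edgeSet)
    (p : Sym2 V → Bool) {ρ : V → I} (hρ : Injective ρ) :
    Tendsto (fun n => ustProb (H n) (D.map (Embedding.subtype _)) p) atTop
      (𝓝 (iidLabels (V × ℕ)
        {u | ∀ e ∈ D, forestOut (adjFun G) (ρ, u) e = p e}).toReal) := by
  set τ : V × ℕ → Bool := fun s =>
    p (((endp (adjFun G) ρ s).elim s(s.1, s.1)) fun w => s(s.1, w))
  have hτ : ∀ e ∈ D, τ (slotOf hρ e) = p e := fun e _ => by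
    obtain ⟨h1, h2⟩ := slotOf_spec hρ e
    simp only [τ, h1, Option.elim_some, h2]
  rw [law_edges hρ D p τ hτ]
  exact tendsto_ust hρ hH D p τ hτ

/-- The factor has the law of the free uniform spanning forest. -/
theorem isFUSF_forest (hG : G.Connected) :
    IsFUSF G ((vertexLabels V).map (forestFactor (adjFun G))) := by
  have hmeas : Measurable (forestFactor (adjFun G)) :=
    measurable_forestFactor.comp (measurable_const.prodMk measurable_id)
  have hprob : IsProbabilityMeasure (vertexLabels V) := by unfold vertexLabels; infer_instance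
  refine ⟨Measure.isProbabilityMeasure_map hmeas.aemeasurable, exists_exhaustion G hG,
    fun H hH D p => ?_⟩
  have hset : MeasurableSet {ω : Sym2 V → Bool | ∀ e ∈ D, ω e = p e} := by
    rw [show {ω : Sym2 V → Bool | ∀ e ∈ D, ω e = p e} =
      ⋂ e ∈ D, (fun ω : Sym2 V → Bool => ω e) ⁻¹' {p e} by ext ω; simp]
    exact Finset.measurableSet_biInter _ fun e _ => measurable_pi_apply e (measurableSet_singleton _)
  set E : Set ((V → I) × (V × ℕ → I)) := {q | ∀ e ∈ D, forestOut (adjFun G) q e = p e}
  have hjoint : Measurable fun q => forestOut (adjFun G) q :=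
    (measurable_forestOut (V := V)).comp (measurable_const.prodMk measurable_id)
  have hE : MeasurableSet E := hjoint hset
  have hμ : (vertexLabels V).map (forestFactor (adjFun G)) {ω | ∀ e ∈ D, ω e = p e} =
      ((iidLabels V).prod (iidLabels (V × ℕ))) E := by
    rw [Measure.map_apply hmeas hset, ← map_rho_inp, Measure.map_apply measurable_rho_inp hE]
    rfl
  rw [hμ]
  by_cases hbad : ∃ e ∈ D, e ∉ G.edgeSet ∧ p e = true
  · obtain ⟨e, he, hne, hp⟩ := hbad
    have hE0 : E = ∅ := Set.eq_empty_of_forall_notMem fun q hq => by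
      have := hq e he
      rw [forestOut_false G hne, hp] at this
      exact Bool.false_ne_true this
    rw [hE0, measure_empty, ENNReal.toReal_zero]
    refine tendsto_const_nhds.congr fun n => ?_
    have : {T ∈ spanningTrees (H n) | ∀ e ∈ D, (e ∈ T.edgeSet ↔ p e = true)} = ∅ :=
      Set.eq_empty_of_forall_notMem fun T hT =>
        hne (T.edgeSet_subset ((hT.2 e he).mpr hp))
    rw [ustProb, this]
    simp
  · push Not at hbad
    set D' : Finset G.edgeSet := D.subtype (fun e => e ∈ G.edgeSet)
    have hiff : ∀ ω : Sym2 V → Bool, (∀ e, e ∉ G.edgeSet → ω e = false) →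
        ((∀ e ∈ D, ω e = p e) ↔ ∀ e ∈ D', ω e = p e) := fun ω hω => by
      refine ⟨fun h e he => h e (Finset.mem_subtype.mp he), fun h e he => ?_⟩
      by_cases hm : e ∈ G.edgeSet
      · exact h ⟨e, hm⟩ (Finset.mem_subtype.mpr he)
      · rw [hω e hm]
        exact (Bool.eq_false_iff.mpr (hbad e he hm)).symm
    have hust : ∀ n, ustProb (H n) D p = ustProb (H n) (D'.map (Embedding.subtype _)) p := by
      intro n
      unfold ustProb
      congr 3
      ext T
      simp only [Set.mem_ofPred_eq]
      refine and_congr_right fun _ => ⟨fun h e he => h e ?_, fun h e he => ?_⟩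
      · simp only [Finset.mem_map, D', Finset.mem_subtype, Embedding.subtype_apply] at he
        obtain ⟨x, hx, rfl⟩ := he
        exact hx
      · by_cases hm : e ∈ G.edgeSet
        · exact h e (Finset.mem_map.mpr ⟨⟨e, hm⟩, Finset.mem_subtype.mpr he, rfl⟩)
        · exact ⟨fun hT => absurd (T.edgeSet_subset hT) hm, fun hp => absurd hp (hbad e he hm)⟩
    have hsec : ∀ ρ, Prod.mk ρ ⁻¹' E = {u | ∀ e ∈ D', forestOut (adjFun G) (ρ, u) e = p e} :=
      fun ρ => Set.ext fun u => hiff _ fun e he => forestOut_false G he
    obtain ⟨ρ₀, hρ₀⟩ := (ae_injective (V := V)).exists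
    have hlim := tendsto_section G hH D' p hρ₀
    have hval : ((iidLabels V).prod (iidLabels (V × ℕ))) E =
        iidLabels (V × ℕ) {u | ∀ e ∈ D', forestOut (adjFun G) (ρ₀, u) e = p e} := by
      rw [Measure.prod_apply hE]
      refine (lintegral_congr_ae (g := fun _ =>
        iidLabels (V × ℕ) {u | ∀ e ∈ D', forestOut (adjFun G) (ρ₀, u) e = p e}) ?_).trans
        (by simp)
      filter_upwards [ae_injective (V := V)] with ρ hρ
      rw [hsec]
      exact (ENNReal.toReal_eq_toReal_iff' (measure_ne_top _ _) (measure_ne_top _ _)).mp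
        (tendsto_nhds_unique (tendsto_section G hH D' p hρ) hlim)
    rw [hval]
    exact hlim.congr fun n => (hust n).symm

omit [Countable V] in
lemma countable_of_connected (hG : G.Connected) : Countable V := by
  obtain ⟨o⟩ := hG.nonempty
  refine Set.countable_univ_iff.mp ((Set.countable_iUnion fun n =>
    (layer_finite G o n).countable).mono fun v _ => ?_)
  exact Set.mem_iUnion.mpr (exists_mem_layer G o hG v)

omit [G.LocallyFinite] in
/-- The factor commutes with automorphisms. -/
lemma forestFactor_aut (g : G ≃g G) (U : V → I) (e : Sym2 V) :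
    forestFactor (adjFun G) (fun v => U (g.symm v)) (e.map g) = forestFactor (adjFun G) U e :=
  forestFactor_map g.toEquiv (fun v w => by
    simp only [adjFun]
    exact decide_eq_decide.mpr g.map_adj_iff) (fun v => by simp) e

end Vale.Agent.P143
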