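import Vale.Agent.P143.Read

/-!
# Measurability and naturality in the kernel and the order
-/

open Filter Topology unitInterval Function MeasureTheory

namespace Vale.Agent.P143

open Vale.Agent.P161 (spin spin_mul_self invCdf continuous_invCdf emp continuous_emp)

variable {S : Type*} [DecidableEq S]

lemma mean_eq_Phi (C : Kern S) {A : Finset S} {η : ℝ} {h : S → ℝ} (a : Adm η h)
    (hA : ∀ w, w ∉ A → h w = 0) {v : S} (hv : v ∈ A) :
    mean C h v = ((h v - 1) * Phi C A (Function.update h v 0) +
      Phi C A (Function.update h v 1)) / Phi C A h := by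
  classical
  have hX : ∀ τ : S → Bool, ∀ c : ℝ, ∏ w ∈ A, (1 + spin (τ w) * Function.update h v c w) =
      (1 + spin (τ v) * c) * ∏ w ∈ A.erase v, (1 + spin (τ w) * h w) := fun τ c => by
    rw [← Finset.mul_prod_erase A _ hv, Function.update_self]
    congr 1
    exact Finset.prod_congr rfl fun w hw => by
      rw [Function.update_of_ne (Finset.ne_of_mem_erase hw)]
  rw [eq_div_iff (Phi_pos C A fun w _ => a.abs_lt w).ne', ← Ev_prod_spin C a hA hv,
    ← Ev_prod C A (Function.update h v 0), ← Ev_prod C A (Function.update h v 1),
    ← Ev_const_mul, ← Ev_add]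
  refine Ev_congr C A fun τ => ?_
  rw [hX, hX, ← Finset.mul_prod_erase A _ hv]
  linear_combination (h v * ∏ w ∈ A.erase v, (1 + spin (τ w) * h w)) * spin_mul_self (τ v)

open Classical in
/-- A tilt cut to a window. -/
noncomputable def cut (A : Finset S) (h : S → ℝ) (w : S) : ℝ := if w ∈ A then h w else 0

lemma adm_cut {η : ℝ} {h : S → ℝ} (a : Adm η h) (A : Finset S) : Adm η (cut A h) := by
  refine ⟨a.1, a.2.1, fun w => ?_⟩
  unfold cut
  split_ifs
  · exact a.2.2 w
  · simp only [abs_zero]; linarith [a.2.1]

variable [Countable S]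

/-- The mean as a limit of determinant ratios along any windows that fill up. -/
lemma tendsto_mean_Phi (C : Kern S) {η : ℝ} {h : S → ℝ} (a : Adm η h) (v : S)
    {An : ℕ → Finset S} (hAn : ∀ w, ∀ᶠ n in atTop, w ∈ An n) :
    Tendsto (fun n => ((cut (An n) h v - 1) * Phi C (An n) (Function.update (cut (An n) h) v 0) +
      Phi C (An n) (Function.update (cut (An n) h) v 1)) / Phi C (An n) (cut (An n) h))
      atTop (𝓝 (mean C h v)) := by
  have := tendsto_mean (C := C) (g := fun n => cut (An n) h) (fun n => adm_cut a (An n)) a (fun w =>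
    tendsto_const_nhds.congr' ((hAn w).mono fun n hn => (by simp [cut, hn]))) v
  refine this.congr' ((hAn v).mono fun n hn => ?_)
  exact mean_eq_Phi C (adm_cut a _) (fun w hw => by simp [cut, hw]) hn

section Meas

variable {X : Type*} [MeasurableSpace X]

omit [DecidableEq S] in
lemma exists_windows : ∃ An : ℕ → Finset S, ∀ w, ∀ᶠ n in atTop, w ∈ An n := by
  classical
  obtain ⟨e, he⟩ := exists_injective_nat S
  exact ⟨fun n => (Finset.range n).preimage e he.injOn, fun w => eventually_atTop.mpr
    ⟨e w + 1, fun n hn => by simp; omega⟩⟩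

omit [Countable S] in
lemma measurable_Phi {C : X → Kern S} (hC : ∀ a b, Measurable fun q => (C q).ent a b)
    {h : X → S → ℝ} (hh : ∀ w, Measurable fun q => h q w) (A : Finset S) :
    Measurable fun q => Phi (C q) A (h q) := by
  simp only [Phi, Matrix.det_apply']
  refine Finset.measurable_sum _ fun π _ => (Finset.measurable_prod _ fun a _ => ?_).const_mul _
  simp only [mmat, Matrix.of_apply]
  exact ((hh _).mul (hC _ _)).const_add _

lemma measurable_mean {C : X → Kern S} (hC : ∀ a b, Measurable fun q => (C q).ent a b)
    {η : ℝ} {h : X → S → ℝ} (ha : ∀ q, Adm η (h q)) (hh : ∀ w, Measurable fun q => h q w)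
    (v : S) : Measurable fun q => mean (C q) (h q) v := by
  classical
  obtain ⟨An, hAn⟩ := exists_windows (S := S)
  have hcut : ∀ n w, Measurable fun q => cut (An n) (h q) w := fun n w => by
    unfold cut
    split_ifs
    · exact hh w
    · exact measurable_const
  have hup : ∀ n (c : ℝ) w, Measurable fun q => Function.update (cut (An n) (h q)) v c w := by
    intro n c w
    by_cases hw : w = v
    · subst hw; simp
    · simpa [hw] using hcut n w
  exact measurable_of_tendsto_metrizable (fun n =>
    (((hcut n v).sub_const 1).mul (measurable_Phi hC (hup n 0) _)).add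
      (measurable_Phi hC (hup n 1) _) |>.div (measurable_Phi hC (hcut n) _))
    (tendsto_pi_nhds.mpr fun q => tendsto_mean_Phi (C q) (ha q) v hAn)

variable {C : X → Kern S} {lt : X → S → S → Prop} {u : X → S × ℕ → I}
  (hC : ∀ a b, Measurable fun q => (C q).ent a b)
  (hirr : ∀ q s, ¬ lt q s s) (hlt : ∀ a b, MeasurableSet {q | lt q a b})
  (hu : ∀ j, Measurable fun q => u q j)

omit [DecidableEq S] [Countable S] in
lemma measurable_upd {g z : X → ℝ} (hg : Measurable g) (hz : Measurable z) :
    Measurable fun q => upd (g q) (z q) := by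
  unfold upd
  exact (hg.add (hz.const_mul eps)).div (((hz.const_mul eps).mul hg).const_add 1)

include hC hirr hlt hu

lemma measurable_state_smp : ∀ k, (∀ w, Measurable fun q => state (C q) (lt q) Set.univ (u q) k w) ∧
    ∀ s, Measurable fun q => smp (C q) (lt q) Set.univ (u q) (s, k) := by
  classical
  have step : ∀ k, (∀ w, Measurable fun q => state (C q) (lt q) Set.univ (u q) k w) →
      ∀ s, Measurable fun q => smp (C q) (lt q) Set.univ (u q) (s, k) := by
    intro k hs
    have pic : ∀ m s, Measurable fun q => picard (C q) (lt q) Set.univ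
        (state (C q) (lt q) Set.univ (u q) k) (fun x => u q (x, k)) m s := by
      intro m
      induction m with
      | zero => exact fun s => hu (s, k)
      | succ m ihm =>
        intro s
        have hz : ∀ w, Measurable fun q => zval (picard (C q) (lt q) Set.univ
            (state (C q) (lt q) Set.univ (u q) k) (fun x => u q (x, k)) m w) :=
          fun w => continuous_zval.measurable.comp (ihm w)
        have hin : ∀ w, Measurable fun q => hIn (lt q) Set.univ
            (state (C q) (lt q) Set.univ (u q) k) (picard (C q) (lt q) Set.univ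
              (state (C q) (lt q) Set.univ (u q) k) (fun x => u q (x, k)) m) s w := fun w => by
          simp only [hIn, Set.mem_univ, and_true]
          exact Measurable.ite (hlt w s) (measurable_upd (hs w) (hz w)) (hs w)
        exact continuous_invCdf.measurable.comp (((measurable_mean hC
          (fun q => adm_hIn (adm_state (hirr q) _ k) _ s) hin s).const_mul eps).prodMk (hu (s, k)))
    exact fun s => measurable_of_tendsto_metrizable (fun m => pic m s)
      (tendsto_pi_nhds.mpr fun q => tendsto_roundOut (hirr q) (adm_state (hirr q) _ k) _ s)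
  suffices hs : ∀ k w, Measurable fun q => state (C q) (lt q) Set.univ (u q) k w from
    fun k => ⟨hs k, step k (hs k)⟩
  intro k
  induction k with
  | zero => exact fun w => measurable_const
  | succ k ih =>
    intro w
    simp only [state, Set.mem_univ, if_true]
    exact measurable_upd (ih w) (continuous_zval.measurable.comp (step k ih w))

lemma measurable_spinOut_param (v : S) :
    Measurable fun q => spinOut (C q) (lt q) (u q) v := by
  refine measurable_to_bool ?_
  have : (fun q => spinOut (C q) (lt q) (u q) v) ⁻¹' {true} =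
      ⋃ N, ⋂ k, ⋂ (_ : N ≤ k),
        {q | 0 < emp eps (4 ^ k) v (smp (C q) (lt q) Set.univ (u q))} := by
    ext q; simp [spinOut]
  rw [this]
  exact MeasurableSet.iUnion fun N => MeasurableSet.iInter fun k => MeasurableSet.iInter fun _ =>
    measurableSet_lt measurable_const ((continuous_emp eps _ v).measurable.comp
      (measurable_pi_iff.mpr fun j => (measurable_state_smp hC hirr hlt hu j.2).2 j.1))

end Meas

section Natural

variable {S' : Type*} [DecidableEq S'] [Countable S'] (es : S ≃ S') {C : Kern S} {C' : Kern S'}
  (hC : ∀ a b, C'.ent (es a) (es b) = C.ent a b)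

include hC

omit [Countable S] [Countable S'] in
lemma Phi_map (A : Finset S) {h : S → ℝ} {h' : S' → ℝ} (hh : ∀ w, h' (es w) = h w) :
    Phi C' (A.map es.toEmbedding) h' = Phi C A h := by
  let eA : A ≃ (A.map es.toEmbedding : Finset S') :=
    es.subtypeEquiv fun a => (Finset.mem_map' _).symm
  rw [Phi, Phi, ← Matrix.det_submatrix_equiv_self eA]
  congr 1
  ext a b
  rw [Matrix.submatrix_apply]
  simp only [mmat, Matrix.of_apply, Matrix.one_apply, eA.injective.eq_iff]
  have e : ∀ x : A, ((eA x : (A.map es.toEmbedding : Finset S')) : S') = es (x : S) := fun x => rfl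
  rw [e, e, hh, hC]

lemma mean_map {η : ℝ} {h : S → ℝ} (a : Adm η h) {h' : S' → ℝ} (hh : ∀ w, h' (es w) = h w)
    (v : S) : mean C' h' (es v) = mean C h v := by
  classical
  obtain ⟨An, hAn⟩ := exists_windows (S := S)
  have a' : Adm η h' := ⟨a.1, a.2.1, fun w => by
    obtain ⟨x, rfl⟩ := es.surjective w; rw [hh]; exact a.2.2 x⟩
  have hAn' : ∀ w, ∀ᶠ n in atTop, w ∈ (An n).map es.toEmbedding := fun w => by
    obtain ⟨x, rfl⟩ := es.surjective w
    exact (hAn x).mono fun n hn => Finset.mem_map_of_mem _ hn
  refine tendsto_nhds_unique (tendsto_mean_Phi C' a' (es v) hAn')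
    ((tendsto_mean_Phi C a v hAn).congr fun n => ?_)
  have hc : ∀ w, cut ((An n).map es.toEmbedding) h' (es w) = cut (An n) h w := fun w => by
    simp [cut, hh]
  have hu : ∀ (c : ℝ) w, Function.update (cut ((An n).map es.toEmbedding) h') (es v) c (es w) =
      Function.update (cut (An n) h) v c w := fun c w => by
    by_cases hw : w = v
    · subst hw; simp
    · simp [hw, hc]
  rw [Phi_map es hC _ (hu 0), Phi_map es hC _ (hu 1), Phi_map es hC _ hc, hc]

variable {lt : S → S → Prop} {lt' : S' → S' → Prop} (hlt : ∀ a b, lt' (es a) (es b) ↔ lt a b)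
  (hirr : ∀ s, ¬ lt s s)
include hlt hirr

lemma smp_map {u : S × ℕ → I} {u' : S' × ℕ → I} (hu : ∀ s k, u' (es s, k) = u (s, k)) :
    ∀ k, (∀ w, state C' lt' Set.univ u' k (es w) = state C lt Set.univ u k w) ∧
      ∀ s, smp C' lt' Set.univ u' (es s, k) = smp C lt Set.univ u (s, k) := by
  classical
  have step : ∀ k, (∀ w, state C' lt' Set.univ u' k (es w) = state C lt Set.univ u k w) →
      ∀ s, smp C' lt' Set.univ u' (es s, k) = smp C lt Set.univ u (s, k) := by
    intro k hs
    have pic : ∀ m s, picard C' lt' Set.univ (state C' lt' Set.univ u' k) (fun x => u' (x, k)) m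
        (es s) = picard C lt Set.univ (state C lt Set.univ u k) (fun x => u (x, k)) m s := by
      intro m
      induction m with
      | zero => exact fun s => hu s k
      | succ m ihm =>
        intro s
        simp only [picard, stepF, hu]
        congr 2
        refine mean_map es hC (adm_hIn (adm_state hirr u k) _ s) (fun w => ?_) s
        simp only [hIn, Set.mem_univ, and_true, hlt, ihm, hs]
    intro s
    simp only [smp, roundOut, pic]
  suffices hs : ∀ k w, state C' lt' Set.univ u' k (es w) = state C lt Set.univ u k w from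
    fun k => ⟨hs k, step k (hs k)⟩
  intro k
  induction k with
  | zero => exact fun w => rfl
  | succ k ih =>
    intro w
    simp only [state, Set.mem_univ, if_true]
    exact congrArg₂ upd (ih w) (congrArg zval (step k ih w))

lemma spinOut_map {u : S × ℕ → I} {u' : S' × ℕ → I} (hu : ∀ s k, u' (es s, k) = u (s, k))
    (v : S) : spinOut C' lt' u' (es v) = spinOut C lt u v := by
  have e : ∀ k, smp C' lt' Set.univ u' (es v, k) = smp C lt Set.univ u (v, k) := fun k =>
    (smp_map es hC hlt hirr hu k).2 v
  have e' : ∀ K : ℕ, emp eps K (es v) (smp C' lt' Set.univ u') =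
      emp eps K v (smp C lt Set.univ u) := fun K => by simp [emp, e]
  simp [spinOut, e']

end Natural

end Vale.Agent.P143
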