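import Vale.Agent.P143.Law

/-!
# Reading the spins off the observations
-/

open Filter Topology unitInterval Function MeasureTheory

namespace Vale.Agent.P143

open Vale.Agent.P161 (spin spin_cases spin_mul_self abs_spin lik rv rv_mem lik_pos iidLabels emp
  abs_emp_le continuous_emp integral_emp_err integrable_of_continuous
  integral_le_integral match' match'_sub)
open Vale.Agent.P161.Params (dependsOn_emp)

variable {S : Type*}

/-- Summable expectations give summability almost surely. -/
lemma ae_summable {X : Type*} [MeasurableSpace X] {μ : Measure X} {F : ℕ → X → ℝ}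
    (h0 : ∀ k x, 0 ≤ F k x) (hm : ∀ k, Measurable (F k)) (hi : ∀ k, Integrable (F k) μ)
    (hs : Summable fun k => ∫ x, F k x ∂μ) : ∀ᵐ x ∂μ, Summable fun k => F k x := by
  have hm' : ∀ k, Measurable fun x => ENNReal.ofReal (F k x) := fun k => (hm k).ennreal_ofReal
  have h : ∫⁻ x, ∑' k, ENNReal.ofReal (F k x) ∂μ ≠ ⊤ := by
    rw [lintegral_tsum fun k => (hm' k).aemeasurable]
    simp only [← ofReal_integral_eq_lintegral_ofReal (hi _) (Eventually.of_forall (h0 _))]
    exact hs.tsum_ofReal_ne_top
  filter_upwards [ae_lt_top (Measurable.ennreal_tsum hm') h] with x hx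
  simpa [ENNReal.toReal_ofReal (h0 _ x)] using ENNReal.summable_toReal hx.ne

variable [DecidableEq S] (C : Kern S) (lt : S → S → Prop)

open Classical in
/-- The spins read off the observations. -/
noncomputable def spinOut (u : S × ℕ → I) (v : S) : Bool :=
  decide (∃ N, ∀ k ≥ N, 0 < emp eps (4 ^ k) v (smp C lt Set.univ u))

variable {C lt} [Countable S] (ho : Order lt)
include ho

lemma continuous_obs (K : ℕ) (v : S) :
    Continuous fun u => emp eps K v (smp C lt Set.univ u) :=
  (continuous_emp eps K v).comp (continuous_smp ho _)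

omit ho in
lemma integral_lik_one {T : Finset (S × ℕ)} (τ : S → Bool) :
    ∫ y, lik eps T τ (rv y) ∂iidLabels (S × ℕ) = 1 := by
  have := Vale.Agent.P161.integral_lik_marginal eps τ (Finset.empty_subset T) (f := fun _ => 1)
    continuous_const (fun _ _ _ => rfl)
  simpa [lik] using this

lemma integral_diff_le (v : S) (k : ℕ) :
    ∫ u, |emp eps (4 ^ k) v (smp C lt Set.univ u) - emp eps (4 ^ (k + 1)) v (smp C lt Set.univ u)|
      ∂iidLabels (S × ℕ) ≤ 4000 * (1 / 2) ^ k := by
  set K' := 4 ^ (k + 1) with hK'
  have hle : 4 ^ k ≤ K' := by rw [hK', pow_succ]; omega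
  have c1 := continuous_emp eps (4 ^ k) v
  have c2 := continuous_emp eps K' v
  rw [integral_smp_univ ho {v} K' (f := fun y => |emp eps (4 ^ k) v y - emp eps K' v y|)
    (c1.sub c2).abs (fun y y' h => by
      simp only
      rw [dependsOn_emp eps (4 ^ k) v (fun i hi => h i (Finset.product_subset_product_right
          (Finset.range_subset_range.mpr hle) hi)), dependsOn_emp eps K' v h])]
  refine Ev_le_const C _ fun τ => ?_
  set T := ({v} : Finset S) ×ˢ Finset.range K'
  have hL := Vale.Agent.P161.continuous_lik (ε := eps) T τ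
  have d1 := (c1.sub (continuous_const (y := spin (τ v)))).abs
  have d2 := (c2.sub (continuous_const (y := spin (τ v)))).abs
  refine (integral_le_integral (g := fun y => |emp eps (4 ^ k) v y - spin (τ v)| *
      lik eps T τ (rv y) + |emp eps K' v y - spin (τ v)| * lik eps T τ (rv y))
      ((c1.sub c2).abs.mul hL) ((d1.mul hL).add (d2.mul hL)) fun y => ?_).trans ?_
  · rw [← add_mul]
    refine mul_le_mul_of_nonneg_right ?_ (lik_pos eps_pos.le
      (by linarith [eps_le]) (rv_mem y) τ).le
    rw [abs_sub_comm (emp eps K' v y) (spin (τ v))]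
    exact abs_sub_le _ _ _
  · rw [integral_add (integrable_of_continuous (h := fun y =>
        |emp eps (4 ^ k) v y - spin (τ v)| * lik eps T τ (rv y)) (d1.mul hL))
      (integrable_of_continuous (h := fun y =>
        |emp eps K' v y - spin (τ v)| * lik eps T τ (rv y)) (d2.mul hL))]
    have hδ : (0 : ℝ) < (1 / 2) ^ k := by positivity
    refine (add_le_add (integral_emp_err eps_pos eps_le τ (K := 4 ^ k) (by positivity) v
        (fun i hi => by simp [T]; omega) hδ)
      (integral_emp_err eps_pos eps_le τ (K := K') (by positivity) v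
        (fun i hi => by simp [T, hi]) hδ)).trans ?_
    have e : (4 : ℝ) ^ k * (1 / 2) ^ k = 2 ^ k := by rw [← mul_pow]; norm_num
    have e2 : ((2 : ℝ) ^ k) = ((1 / 2 : ℝ) ^ k)⁻¹ := by rw [← inv_pow]; norm_num
    push_cast [hK']
    rw [show eps ^ 2 * (4 : ℝ) ^ k * (1 / 2) ^ k = eps ^ 2 * 2 ^ k by rw [mul_assoc, e],
      show eps ^ 2 * (4 : ℝ) ^ (k + 1) * (1 / 2) ^ k = eps ^ 2 * (4 * 2 ^ k) by
        rw [← e]; ring, e2]
    simp only [eps]
    field_simp
    linarith

lemma integral_one_sub_le (v : S) (k : ℕ) :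
    ∫ u, (1 - emp eps (4 ^ k) v (smp C lt Set.univ u) ^ 2) ∂iidLabels (S × ℕ) ≤
      4000 * (1 / 2) ^ k := by
  set K := 4 ^ k with hK
  have c1 := continuous_emp eps K v
  rw [integral_smp_univ ho {v} K (f := fun y => 1 - emp eps K v y ^ 2)
    (continuous_const.sub (c1.pow 2)) (fun y y' h => by simp only; rw [dependsOn_emp eps K v h])]
  refine Ev_le_const C _ fun τ => ?_
  set T := ({v} : Finset S) ×ˢ Finset.range K
  have hL := Vale.Agent.P161.continuous_lik (ε := eps) T τ
  have d1 := (c1.sub (continuous_const (y := spin (τ v)))).abs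
  refine (integral_le_integral (g := fun y => 2 * (|emp eps K v y - spin (τ v)| *
      lik eps T τ (rv y))) ((continuous_const.sub (c1.pow 2)).mul hL)
      (continuous_const.mul (d1.mul hL)) fun y => ?_).trans ?_
  · rw [← mul_assoc]
    refine mul_le_mul_of_nonneg_right ?_ (lik_pos eps_pos.le
      (by linarith [eps_le]) (rv_mem y) τ).le
    obtain ⟨a, b⟩ := abs_le.mp (abs_emp_le eps K v y)
    rcases spin_cases (τ v) with e | e <;> rw [e]
    · have := neg_le_abs (emp eps K v y - 1); simp only [Pi.sub_apply, Pi.pow_apply]; nlinarith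
    · have := le_abs_self (emp eps K v y - -1); simp only [Pi.sub_apply, Pi.pow_apply]; nlinarith
  · rw [integral_const_mul]
    have hδ : (0 : ℝ) < (1 / 2) ^ k := by positivity
    refine (mul_le_mul_of_nonneg_left (integral_emp_err eps_pos eps_le τ (K := K) (by positivity) v
      (fun i hi => by simp [T, hi]) hδ) zero_le_two).trans ?_
    have e : (4 : ℝ) ^ k * (1 / 2) ^ k = 2 ^ k := by rw [← mul_pow]; norm_num
    have e2 : ((2 : ℝ) ^ k) = ((1 / 2 : ℝ) ^ k)⁻¹ := by rw [← inv_pow]; norm_num
    push_cast [hK]
    rw [show eps ^ 2 * (4 : ℝ) ^ k * (1 / 2) ^ k = eps ^ 2 * 2 ^ k by rw [mul_assoc, e], e2]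
    simp only [eps]
    field_simp
    linarith

lemma integral_match_sub (D : Finset S) (τ₀ : S → Bool) (k : ℕ) :
    |(∫ u, match' D τ₀ (fun v => emp eps (4 ^ k) v (smp C lt Set.univ u)) ∂iidLabels (S × ℕ)) -
      (1 / 2) ^ D.card * Phi C D (fun v => spin (τ₀ v))| ≤ D.card * (4000 * (1 / 2) ^ k) := by
  set K := 4 ^ k with hK
  set T := D ×ˢ Finset.range K
  set f : (S × ℕ → I) → ℝ := fun y => match' D τ₀ fun v => emp eps K v y
  have hfc : Continuous f := by
    simp only [f, match']
    exact continuous_finsetProd _ fun v _ =>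
      ((continuous_const.add (continuous_const.mul (continuous_emp eps K v))).div_const _)
  have hfd : DependsOn f (T : Set _) := fun y y' h => by
    refine Finset.prod_congr rfl fun v hv => ?_
    simp only
    rw [dependsOn_emp eps K v fun i hi => h i (Finset.product_subset_product_left
      (Finset.singleton_subset_iff.mpr hv) hi)]
  have hq : (1 / 2) ^ D.card * Phi C D (fun v => spin (τ₀ v)) =
      Ev C D fun τ => match' D τ₀ fun v => spin (τ v) := by
    rw [← Ev_prod, ← Ev_const_mul]
    refine Ev_congr C D fun τ => ?_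
    rw [match', Finset.prod_div_distrib, Finset.prod_const, one_div, inv_pow, inv_mul_eq_div]
    congr 1
    exact Finset.prod_congr rfl fun v _ => by rw [mul_comm]
  rw [integral_smp_univ ho D K (f := f) hfc hfd, hq, sub_eq_add_neg, ← neg_one_mul,
    ← Ev_const_mul, ← Ev_add]
  refine (abs_Ev_le C D _).trans (Ev_le_const C D fun τ => ?_)
  have hL := Vale.Agent.P161.continuous_lik (ε := eps) T τ
  set m := match' D τ₀ (fun v => spin (τ v))
  have e : (∫ y, f y * lik eps T τ (rv y) ∂iidLabels (S × ℕ)) + -1 * m =
      ∫ y, (f y - m) * lik eps T τ (rv y) ∂iidLabels (S × ℕ) := by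
    simp only [sub_mul]
    rw [integral_sub (integrable_of_continuous (h := fun y => f y * lik eps T τ (rv y))
      (hfc.mul hL)) ((integrable_of_continuous hL).const_mul _), integral_const_mul,
      integral_lik_one]
    ring
  have d1 : ∀ v, Continuous fun y => |emp eps K v y - spin (τ v)| * lik eps T τ (rv y) :=
    fun v => ((continuous_emp eps K v).sub continuous_const).abs.mul hL
  rw [e]
  refine abs_integral_le_integral_abs.trans ?_
  refine (integral_le_integral (g := fun y => ∑ v ∈ D, (1 / 2) *
    (|emp eps K v y - spin (τ v)| * lik eps T τ (rv y))) ((hfc.sub continuous_const).mul hL).abs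
    (continuous_finsetSum _ fun v _ => continuous_const.mul (d1 v)) fun y => ?_).trans ?_
  · have hl := (lik_pos eps_pos.le (by linarith [eps_le]) (rv_mem y) τ (S := T)).le
    simp only [Pi.mul_apply, Pi.sub_apply, f, m]
    rw [abs_mul, abs_of_nonneg hl]
    refine (mul_le_mul_of_nonneg_right (match'_sub D τ₀ (fun v => abs_emp_le eps K v y)
      (fun v => (abs_spin _).le)) hl).trans_eq ?_
    rw [Finset.sum_mul]
    exact Finset.sum_congr rfl fun v _ => by ring
  · rw [integral_finsetSum _ fun v _ => (integrable_of_continuous (d1 v)).const_mul _]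
    refine (Finset.sum_le_card_nsmul _ _ (4000 * (1 / 2) ^ k)
      fun v hv => ?_).trans_eq (by rw [nsmul_eq_mul])
    rw [integral_const_mul]
    have hδ : (0 : ℝ) < (1 / 2) ^ k := by positivity
    refine (mul_le_mul_of_nonneg_left (integral_emp_err eps_pos eps_le τ (K := K) (by positivity) v
      (fun i hi => Finset.mem_product.mpr ⟨hv, Finset.mem_range.mpr hi⟩) hδ)
      (by norm_num : (0 : ℝ) ≤ 1 / 2)).trans ?_
    have e : (4 : ℝ) ^ k * (1 / 2) ^ k = 2 ^ k := by rw [← mul_pow]; norm_num
    have e2 : ((2 : ℝ) ^ k) = ((1 / 2 : ℝ) ^ k)⁻¹ := by rw [← inv_pow]; norm_num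
    push_cast [hK]
    rw [show eps ^ 2 * (4 : ℝ) ^ k * (1 / 2) ^ k = eps ^ 2 * 2 ^ k by rw [mul_assoc, e], e2]
    simp only [eps]
    field_simp
    linarith

lemma measurable_spinOut (v : S) : Measurable fun u => spinOut C lt u v := by
  refine measurable_to_bool ?_
  have : (fun u => spinOut C lt u v) ⁻¹' {true} =
      ⋃ N, ⋂ k, ⋂ (_ : N ≤ k), {u | 0 < emp eps (4 ^ k) v (smp C lt Set.univ u)} := by
    ext u; simp [spinOut]
  rw [this]
  exact MeasurableSet.iUnion fun N => MeasurableSet.iInter fun k => MeasurableSet.iInter fun _ =>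
    measurableSet_lt measurable_const (continuous_obs ho _ v).measurable

lemma ae_tendsto_spin (v : S) :
    ∀ᵐ u ∂iidLabels (S × ℕ), Tendsto (fun k => emp eps (4 ^ k) v (smp C lt Set.univ u)) atTop
      (𝓝 (spin (spinOut C lt u v))) := by
  have hg : Summable fun k : ℕ => 4000 * (1 / 2 : ℝ) ^ k :=
    (summable_geometric_of_lt_one (by norm_num) (by norm_num)).mul_left _
  have c := fun k : ℕ => continuous_obs (C := C) ho (4 ^ k) v
  have h1 := ae_summable (μ := iidLabels (S × ℕ))
    (F := fun k u => |emp eps (4 ^ k) v (smp C lt Set.univ u) -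
      emp eps (4 ^ (k + 1)) v (smp C lt Set.univ u)|)
    (fun k u => abs_nonneg _) (fun k => ((c k).sub (c (k + 1))).abs.measurable)
    (fun k => integrable_of_continuous ((c k).sub (c (k + 1))).abs)
    (Summable.of_nonneg_of_le (fun k => integral_nonneg fun u => abs_nonneg _)
      (integral_diff_le ho v) hg)
  have hpos : ∀ k u, 0 ≤ 1 - emp eps (4 ^ k) v (smp C lt Set.univ u) ^ 2 := fun k u => by
    obtain ⟨a, b⟩ := abs_le.mp (abs_emp_le eps (4 ^ k) v (smp C lt Set.univ u))
    nlinarith
  have h2 := ae_summable (μ := iidLabels (S × ℕ))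
    (F := fun k u => 1 - emp eps (4 ^ k) v (smp C lt Set.univ u) ^ 2)
    hpos (fun k => (continuous_const.sub ((c k).pow 2)).measurable)
    (fun k => integrable_of_continuous (continuous_const.sub ((c k).pow 2)))
    (Summable.of_nonneg_of_le (fun k => integral_nonneg fun u => hpos k u)
      (integral_one_sub_le ho v) hg)
  filter_upwards [h1, h2] with u s1 s2
  obtain ⟨l, hl⟩ := cauchySeq_tendsto_of_complete (cauchySeq_of_summable_dist
    (f := fun k => emp eps (4 ^ k) v (smp C lt Set.univ u)) (by simpa [Real.dist_eq] using s1))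
  have hl1 : 1 - l ^ 2 = 0 :=
    tendsto_nhds_unique ((hl.pow 2).const_sub 1) s2.tendsto_atTop_zero
  rcases sq_eq_one_iff.mp (by linarith : l ^ 2 = 1) with h | h <;> subst h
  · have : spinOut C lt u v = true := by
      obtain ⟨N, hN⟩ := eventually_atTop.mp (hl.eventually_const_lt (zero_lt_one' ℝ))
      simpa [spinOut] using ⟨N, hN⟩
    rw [this]; simpa [spin] using hl
  · have : spinOut C lt u v = false := by
      obtain ⟨N, hN⟩ := eventually_atTop.mp (hl.eventually_lt_const (by norm_num : (-1 : ℝ) < 0))
      simp only [spinOut, decide_eq_false_iff_not, not_exists]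
      intro M hM
      linarith [hN (max N M) (le_max_left _ _), hM (max N M) (le_max_right _ _)]
    rw [this]; simpa [spin] using hl

/-- The read spins have the determinantal law on every window. -/
lemma law_spinOut (D : Finset S) (τ₀ : S → Bool) :
    (iidLabels (S × ℕ) {u | ∀ v ∈ D, spinOut C lt u v = τ₀ v}).toReal =
      (1 / 2) ^ D.card * Phi C D (fun v => spin (τ₀ v)) := by
  classical
  set E := {u : S × ℕ → I | ∀ v ∈ D, spinOut C lt u v = τ₀ v}
  have hE : MeasurableSet E := by
    have : E = ⋂ v ∈ D, (fun u => spinOut C lt u v) ⁻¹' {τ₀ v} := by ext u; simp [E]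
    rw [this]
    exact D.measurableSet_biInter fun v _ => measurable_spinOut ho v (measurableSet_singleton _)
  have hmatch : ∀ u, match' D τ₀ (fun v => spin (spinOut C lt u v)) =
      E.indicator (fun _ => (1 : ℝ)) u := by
    intro u
    by_cases hu : u ∈ E
    · rw [Set.indicator_of_mem hu]
      exact Finset.prod_eq_one fun v hv => by simp only [hu v hv, spin_mul_self]; norm_num
    · rw [Set.indicator_of_notMem hu]
      simp only [E, Set.mem_ofPred_eq, not_forall] at hu
      obtain ⟨v, hv, hne⟩ := hu
      exact Finset.prod_eq_zero hv (by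
        revert hne; cases h : τ₀ v <;> cases h' : spinOut C lt u v <;> simp_all [spin])
  have hc : ∀ k : ℕ, Continuous fun u => match' D τ₀
      fun v => emp eps (4 ^ k) v (smp C lt Set.univ u) := fun k => by
    unfold match'
    exact continuous_finsetProd _ fun v _ =>
      ((continuous_const.add (continuous_const.mul (continuous_obs ho _ v))).div_const _)
  have lim := tendsto_integral_of_dominated_convergence (μ := iidLabels (S × ℕ))
    (F := fun k u => match' D τ₀ fun v => emp eps (4 ^ k) v (smp C lt Set.univ u))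
    (f := fun u => match' D τ₀ fun v => spin (spinOut C lt u v)) (fun _ => 1)
    (fun k => (hc k).aestronglyMeasurable) (integrable_const 1)
    (fun k => Eventually.of_forall fun u => by
      obtain ⟨a, b⟩ := Vale.Agent.P161.match'_range D τ₀
        (fun v => abs_emp_le eps (4 ^ k) v (smp C lt Set.univ u))
      rwa [Real.norm_eq_abs, abs_of_nonneg a])
    (by
      filter_upwards [(Finset.eventually_all D).mpr fun v _ => ae_tendsto_spin (C := C) ho v] with u hu
      exact tendsto_finsetProd _ fun v hv => ((hu v hv).const_mul _).const_add _ |>.div_const _)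
  simp only [hmatch] at lim
  rw [integral_indicator_const _ hE, smul_eq_mul, mul_one] at lim
  refine tendsto_nhds_unique lim ?_
  refine tendsto_iff_dist_tendsto_zero.mpr (squeeze_zero (fun k => dist_nonneg)
    (fun k => (Real.dist_eq _ _).trans_le (integral_match_sub ho D τ₀ k)) ?_)
  have := ((tendsto_pow_atTop_nhds_zero_of_lt_one (by norm_num : (0 : ℝ) ≤ 1 / 2)
    (by norm_num)).const_mul (4000 : ℝ)).const_mul (D.card : ℝ)
  rwa [mul_zero, mul_zero] at this

end Vale.Agent.P143
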