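import Vale.Agent.P143.Param
import Vale.Agent.P143.Defs

/-!
# Slots for edges and the kernel of the forest
-/

open Filter Topology unitInterval Function MeasureTheory
open scoped InnerProductSpace

namespace Vale.Agent.P143

variable {V : Type*}

/-- `w` can be owned by `v`. -/
def Cand (a : V → V → Bool) (ρ : V → I) (v w : V) : Prop := a v w = true ∧ ρ v < ρ w

/-- `w` is the candidate of rank `i` of `v`. -/
def RankIs (a : V → V → Bool) (ρ : V → I) (v : V) (i : ℕ) (w : V) : Prop :=
  Cand a ρ v w ∧ ∃ F : Finset V, F.card = i ∧ ∀ x, x ∈ F ↔ Cand a ρ v x ∧ ρ x < ρ w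

open Classical in
/-- The far end of a slot. -/
noncomputable def endp (a : V → V → Bool) (ρ : V → I) (s : V × ℕ) : Option V :=
  if h : ∃! w, RankIs a ρ s.1 s.2 w then some h.exists.choose else none

lemma endp_eq_some_iff {a : V → V → Bool} {ρ : V → I} {s : V × ℕ} {w : V} :
    endp a ρ s = some w ↔
      RankIs a ρ s.1 s.2 w ∧ ∀ w', RankIs a ρ s.1 s.2 w' → w' = w := by
  unfold endp
  split_ifs with h
  · constructor
    · intro e
      obtain rfl := Option.some.inj e
      exact ⟨h.exists.choose_spec, fun w' hw' => h.unique hw' h.exists.choose_spec⟩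
    · rintro ⟨h1, h2⟩
      rw [h2 _ h.exists.choose_spec]
  · simp only [false_iff, not_and, not_forall, reduceCtorEq]
    intro h1
    by_contra hh
    push Not at hh
    exact h ⟨w, h1, hh⟩

/-- The order of the slots. -/
def slotLt (ρ : V → I) (s t : V × ℕ) : Prop := ρ s.1 < ρ t.1 ∨ (s.1 = t.1 ∧ s.2 < t.2)

lemma slotLt_irr (ρ : V → I) (s : V × ℕ) : ¬ slotLt ρ s s := by simp [slotLt]

lemma slotLt_order {ρ : V → I} (hρ : Injective ρ) : Order (slotLt ρ) := by
  refine ⟨slotLt_irr ρ, ?_, ?_⟩
  · rintro ⟨a, i⟩ ⟨b, j⟩ ⟨c, k⟩ (h | ⟨h1, h2⟩) (h' | ⟨h1', h2'⟩)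
    · exact Or.inl (h.trans h')
    · exact Or.inl (by simp only at *; rw [← h1']; exact h)
    · exact Or.inl (by simp only at *; rw [h1]; exact h')
    · exact Or.inr ⟨h1.trans h1', h2.trans h2'⟩
  · rintro ⟨a, i⟩ ⟨b, j⟩
    rcases lt_trichotomy (ρ a) (ρ b) with h | h | h
    · exact Or.inl (Or.inl h)
    · obtain rfl := hρ h
      rcases lt_trichotomy i j with h | rfl | h
      · exact Or.inl (Or.inr ⟨rfl, h⟩)
      · exact Or.inr (Or.inl rfl)
      · exact Or.inr (Or.inr (Or.inr ⟨rfl, h⟩))
    · exact Or.inr (Or.inr (Or.inl h))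

/-- The vertices carrying a signed incidence of a slot. -/
def bd [DecidableEq V] (s : V × ℕ) (o : Option V) (x : V) : ℝ :=
  o.elim 0 fun w => (if s.1 = x then 1 else 0) - (if w = x then 1 else 0)

section Proj

variable [DecidableEq V] (f : V × ℕ → Option V)

/-- Cycles carried by a finite set of slots. -/
def cyc (T : Finset (V × ℕ)) : Submodule ℝ (L2 (V × ℕ)) where
  carrier := {z | (∀ s, (s ∉ T ∨ f s = none) → z s = 0) ∧
    ∀ x, ∑ s ∈ T, z s * bd s (f s) x = 0}
  add_mem' := by
    intro y z hy hz
    refine ⟨fun s hs => by simp [hy.1 s hs, hz.1 s hs], fun x => ?_⟩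
    simp only [lp.coeFn_add, Pi.add_apply, add_mul, Finset.sum_add_distrib, hy.2 x, hz.2 x,
      add_zero]
  zero_mem' := by simp
  smul_mem' := by
    intro c z hz
    refine ⟨fun s hs => by simp [hz.1 s hs], fun x => ?_⟩
    simp only [lp.coeFn_smul, Pi.smul_apply, smul_eq_mul, mul_assoc, ← Finset.mul_sum, hz.2 x,
      mul_zero]

instance (T : Finset (V × ℕ)) : FiniteDimensional ℝ (cyc f T) :=
  FiniteDimensional.of_injective
    ({ toFun := fun z (s : T) => (z : L2 (V × ℕ)) s
       map_add' := fun y z => by funext s; simp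
       map_smul' := fun c z => by funext s; simp } : cyc f T →ₗ[ℝ] (T → ℝ))
    fun y z h => by
      apply Subtype.ext
      apply lp.ext
      funext s
      by_cases hs : s ∈ T
      · exact congrFun h ⟨s, hs⟩
      · rw [y.2.1 s (Or.inl hs), z.2.1 s (Or.inl hs)]

lemma cyc_mono : Monotone (cyc f) := by
  intro T T' h z hz
  refine ⟨fun s hs => hz.1 s (hs.imp_left fun h' hT => h' (h hT)), fun x => ?_⟩
  rw [← Finset.sum_subset h fun s _ hs => by rw [hz.1 s (Or.inl hs), zero_mul]]
  exact hz.2 x

/-- Closure of all finite cycles. -/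
noncomputable def cycAll : Submodule ℝ (L2 (V × ℕ)) := (⨆ T, cyc f T).topologicalClosure

instance : (cycAll f).HasOrthogonalProjection := by
  unfold cycAll; infer_instance

end Proj

section KernOf

variable {S : Type*} (U : Submodule ℝ (L2 S)) [U.HasOrthogonalProjection]

/-- The kernel of a subspace: minus the reflection. -/
noncomputable def kernOf : Kern S where
  op := 1 - (2 : ℝ) • U.starProjection
  sym := fun f g => by
    simp only [sub_apply, one_apply_eq_self, smul_apply, inner_sub_left, inner_sub_right,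
      real_inner_smul_left, real_inner_smul_right]
    have := U.starProjection_isSymmetric f g
    simp only [ContinuousLinearMap.coe_coe] at this
    rw [this]
  bound := fun f => by
    have e : ‖U.reflection f‖ = ‖f‖ := LinearIsometryEquiv.norm_map _ _
    rw [Submodule.reflection_apply, norm_sub_rev] at e
    refine le_of_eq ?_
    rw [← e, sub_apply, one_apply_eq_self, smul_apply,
      show (2 : ℝ) • U.starProjection f = 2 • U.starProjection f by simp [two_smul]]

lemma kernOf_ent [DecidableEq S] (s t : S) :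
    (kernOf U).ent s t = bas t s - 2 * U.starProjection (bas t) s := by
  simp only [Kern.ent, kernOf, sub_apply, one_apply_eq_self, smul_apply]
  rfl

end KernOf

section Limit

variable [DecidableEq V] (f : V × ℕ → Option V)

/-- Projection entries of finitely many slots. -/
noncomputable def pfin (T : Finset (V × ℕ)) (s t : V × ℕ) : ℝ :=
  (cyc f T).starProjection (bas t) s

/-- The kernel of the forest. -/
noncomputable def forestKern : Kern (V × ℕ) := kernOf (cycAll f)

/-- The kernel of finitely many slots. -/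
noncomputable def finKern (T : Finset (V × ℕ)) : Kern (V × ℕ) := kernOf (cyc f T)

lemma tendsto_pfin (s t : V × ℕ) :
    Tendsto (fun T => pfin f T s t) atTop (𝓝 ((cycAll f).starProjection (bas t) s)) := by
  have h := Submodule.starProjection_tendsto_closure_iSup (cyc f) (cyc_mono f) (bas t)
  have hc : Continuous fun z : L2 (V × ℕ) => z s := by
    have : (fun z : L2 (V × ℕ) => z s) = fun z => ⟪bas s, z⟫_ℝ :=
      funext fun z => (inner_bas s z).symm
    rw [this]; fun_prop
  exact (hc.tendsto _).comp h

lemma tendsto_ent {Tn : ℕ → Finset (V × ℕ)} (hT : ∀ s, ∀ᶠ n in atTop, s ∈ Tn n) (s t : V × ℕ) :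
    Tendsto (fun n => (finKern f (Tn n)).ent s t) atTop (𝓝 ((forestKern f).ent s t)) := by
  simp only [finKern, forestKern, kernOf_ent]
  have hat : Tendsto Tn atTop atTop := tendsto_atTop.mpr fun F => by
    filter_upwards [(Finset.eventually_all F).mpr fun s _ => hT s] with n hn using hn
  exact tendsto_const_nhds.sub (((tendsto_pfin f s t).comp hat).const_mul 2)

lemma tendsto_Phi {Tn : ℕ → Finset (V × ℕ)} (hT : ∀ s, ∀ᶠ n in atTop, s ∈ Tn n)
    (D : Finset (V × ℕ)) (h : V × ℕ → ℝ) :
    Tendsto (fun n => Phi (finKern f (Tn n)) D h) atTop (𝓝 (Phi (forestKern f) D h)) := by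
  simp only [Phi, Matrix.det_apply', mmat, Matrix.of_apply]
  exact tendsto_finsetSum _ fun π _ => (tendsto_finsetProd _ fun a _ =>
    ((tendsto_ent f hT _ _).const_mul _).const_add _).const_mul _

lemma cyc_congr {f f' : V × ℕ → Option V} {T : Finset (V × ℕ)} (h : ∀ s ∈ T, f s = f' s) :
    cyc f T = cyc f' T := by
  apply SetLike.ext
  intro z
  show (_ ∧ _) ↔ (_ ∧ _)
  refine and_congr (forall_congr' fun s => ?_) (forall_congr' fun x => ?_)
  · by_cases hs : s ∈ T
    · rw [h s hs]
    · simp [hs]
  · rw [Finset.sum_congr rfl fun s hs => by rw [h s hs]]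

lemma pfin_congr {f f' : V × ℕ → Option V} {T : Finset (V × ℕ)} (h : ∀ r ∈ T, f r = f' r)
    (s t : V × ℕ) : pfin f T s t = pfin f' T s t := by
  have key : ∀ (U U' : Submodule ℝ (L2 (V × ℕ))) [U.HasOrthogonalProjection]
      [U'.HasOrthogonalProjection], U = U' → U.starProjection (bas t) = U'.starProjection (bas t) :=
    fun U U' _ _ h => by subst h; rfl
  rw [pfin, pfin, key _ _ (cyc_congr h)]

variable [Countable V]

lemma measurable_pfin {X : Type*} [MeasurableSpace X] {g : X → V × ℕ → Option V}
    (hg : ∀ r o, MeasurableSet {q | g q r = o}) (T : Finset (V × ℕ)) (s t : V × ℕ) :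
    Measurable fun q => pfin (g q) T s t := by
  classical
  intro B _
  have e : (fun q => pfin (g q) T s t) ⁻¹' B =
      ⋃ y ∈ {y : T → Option V | pfin (fun r => if hr : r ∈ T then y ⟨r, hr⟩ else none) T s t ∈ B},
        ⋂ r : T, {q | g q r = y r} := by
    ext q
    simp only [Set.mem_preimage, Set.mem_iUnion, Set.mem_iInter, Set.mem_ofPred_eq, exists_prop]
    constructor
    · intro h
      exact ⟨fun r => g q r, by rwa [pfin_congr (f' := g q) (fun r hr => by simp [hr])],
        fun r => rfl⟩
    · rintro ⟨y, hy, hq⟩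
      rwa [pfin_congr (f' := fun r => if hr : r ∈ T then y ⟨r, hr⟩ else none)
        (fun r hr => by simp [hr, hq ⟨r, hr⟩])]
  rw [e]
  exact MeasurableSet.biUnion (Set.to_countable _) fun y _ => MeasurableSet.iInter fun r => hg _ _

lemma measurable_forest_ent {X : Type*} [MeasurableSpace X] {g : X → V × ℕ → Option V}
    (hg : ∀ r o, MeasurableSet {q | g q r = o}) (s t : V × ℕ) :
    Measurable fun q => (forestKern (g q)).ent s t := by
  obtain ⟨An, hAn⟩ := exists_windows (S := V × ℕ)
  refine measurable_of_tendsto_metrizable (fun n => ?_)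
    (tendsto_pi_nhds.mpr fun q => tendsto_ent (g q) hAn s t)
  simp only [finKern, kernOf_ent]
  exact ((measurable_pfin hg _ s t).const_mul 2).const_sub _

end Limit

section Natural

variable {W : Type*} [DecidableEq V] [DecidableEq W] (e : V ≃ W) {f : V × ℕ → Option V}
  {f' : W × ℕ → Option W} (hf : ∀ v i, f' (e v, i) = (f (v, i)).map e)

/-- A finitely supported vector. -/
noncomputable def vecOf {S : Type*} [DecidableEq S] (T : Finset S) (x : S → ℝ) : L2 S :=
  ∑ r ∈ T, x r • bas r

lemma vecOf_apply {S : Type*} [DecidableEq S] (T : Finset S) (x : S → ℝ) (s : S) :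
    vecOf T x s = if s ∈ T then x s else 0 := by
  rw [vecOf, lp.coeFn_sum, Finset.sum_apply]
  simp only [lp.coeFn_smul, Pi.smul_apply, smul_eq_mul]
  split_ifs with hs
  · rw [Finset.sum_eq_single_of_mem s hs fun r _ hr => by rw [bas_ne (Ne.symm hr), mul_zero],
      bas_self, mul_one]
  · exact Finset.sum_eq_zero fun r hr => by
      rw [bas_ne fun h => hs (by rwa [h]), mul_zero]

lemma inner_vecOf {S : Type*} [DecidableEq S] (T : Finset S) (x : S → ℝ) (z : L2 S) :
    ⟪vecOf T x, z⟫_ℝ = ∑ r ∈ T, x r * z r := by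
  rw [vecOf, sum_inner]
  simp [real_inner_smul_left, inner_bas]

/-- The bijection of slots. -/
def slotEquiv : V × ℕ ≃ W × ℕ := e.prodCongr (Equiv.refl ℕ)

include hf

omit [DecidableEq V] [DecidableEq W] in
lemma map_end (s : V × ℕ) : f' (slotEquiv e s) = (f s).map e := hf s.1 s.2

lemma bd_map (s : V × ℕ) (x : V) : bd (slotEquiv e s) (f' (slotEquiv e s)) (e x) = bd s (f s) x := by
  rw [map_end e hf]
  cases f s <;> simp [bd, slotEquiv]

lemma cyc_map (T : Finset (V × ℕ)) {z : L2 (V × ℕ)} (hz : z ∈ cyc f T) :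
    vecOf (T.map (slotEquiv e).toEmbedding) (fun s => z ((slotEquiv e).symm s)) ∈
      cyc f' (T.map (slotEquiv e).toEmbedding) := by
  refine ⟨fun s hs => ?_, fun x => ?_⟩
  · obtain ⟨r, rfl⟩ := (slotEquiv e).surjective s
    rw [vecOf_apply]
    split_ifs with hr
    · rw [Equiv.symm_apply_apply]
      refine hz.1 r (hs.imp (fun h h' => h (Finset.mem_map_of_mem _ h')) fun h => ?_)
      rw [map_end e hf] at h
      simpa using h
    · rfl
  · obtain ⟨y, rfl⟩ := e.surjective x
    rw [Finset.sum_map]
    refine (Finset.sum_congr rfl fun s hs => ?_).trans (hz.2 y)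
    simp only [Equiv.coe_toEmbedding]
    have hm : slotEquiv e s ∈ T.map (slotEquiv e).toEmbedding :=
      Finset.mem_map_of_mem (slotEquiv e).toEmbedding hs
    rw [vecOf_apply, if_pos hm, Equiv.symm_apply_apply, bd_map e hf]

lemma pfin_map (T : Finset (V × ℕ)) (s t : V × ℕ) :
    pfin f' (T.map (slotEquiv e).toEmbedding) (slotEquiv e s) (slotEquiv e t) = pfin f T s t := by
  classical
  set es := slotEquiv e
  set T' := T.map es.toEmbedding
  set p := (cyc f T).starProjection (bas t)
  have hp : p ∈ cyc f T := Submodule.starProjection_apply_mem _ _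
  have hback : ∀ {w : L2 (W × ℕ)}, w ∈ cyc f' T' → vecOf T (fun r => w (es r)) ∈ cyc f T := by
    intro w hw
    refine ⟨fun r hr => ?_, fun x => ?_⟩
    · rw [vecOf_apply]
      split_ifs with h
      · refine hw.1 (es r) (hr.imp (fun h' _ => h' h) fun h' => ?_)
        rw [map_end e hf, h']; rfl
      · rfl
    · refine (Finset.sum_congr rfl fun r hr => ?_).trans
        ((Finset.sum_map T es.toEmbedding fun r => w r * bd r (f' r) (e x)).symm.trans (hw.2 (e x)))
      simp only [Equiv.coe_toEmbedding]
      rw [vecOf_apply, if_pos hr, bd_map e hf]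
  have key : (cyc f' T').starProjection (bas (es t)) = vecOf T' (fun r => p (es.symm r)) := by
    refine Submodule.eq_starProjection_of_mem_of_inner_eq_zero (cyc_map e hf T hp) fun w hw => ?_
    have h0 := Submodule.starProjection_inner_eq_zero (K := cyc f T) (bas t) _ (hback hw)
    rw [inner_sub_left, inner_bas, real_inner_comm _ p, inner_vecOf, vecOf_apply] at h0
    rw [inner_sub_left, inner_bas, inner_vecOf, Finset.sum_map]
    simp only [Equiv.coe_toEmbedding, Equiv.symm_apply_apply]
    rw [Finset.sum_congr rfl fun r _ => mul_comm (p r) (w (es r))]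
    by_cases ht : t ∈ T
    · rw [if_pos ht] at h0
      exact h0
    · rw [if_neg ht] at h0
      rw [hw.1 (es t) (Or.inl fun h => ht (by simpa [T'] using h))]
      exact h0
  rw [pfin, key, vecOf_apply]
  simp only [Equiv.symm_apply_apply]
  by_cases hs : s ∈ T
  · have hm : es s ∈ T' := Finset.mem_map_of_mem es.toEmbedding hs
    rw [if_pos hm]; rfl
  · rw [if_neg (fun h => hs (by simpa [T'] using h))]
    exact (hp.1 s (Or.inl hs)).symm

lemma forest_ent_map [Countable V] (s t : V × ℕ) :
    (forestKern f').ent (slotEquiv e s) (slotEquiv e t) = (forestKern f).ent s t := by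
  obtain ⟨An, hAn⟩ := exists_windows (S := V × ℕ)
  refine tendsto_nhds_unique (tendsto_ent f' (Tn := fun n => (An n).map (slotEquiv e).toEmbedding)
    (fun r => by
      obtain ⟨x, rfl⟩ := (slotEquiv e).surjective r
      exact (hAn x).mono fun n hn => Finset.mem_map_of_mem _ hn) _ _)
    ((tendsto_ent f hAn s t).congr fun n => ?_)
  simp only [finKern, kernOf_ent]
  have hb : bas (slotEquiv e t) (slotEquiv e s) = bas t s := by
    by_cases h : s = t
    · subst h; rw [bas_self, bas_self]
    · rw [bas_ne h, bas_ne fun h' => h ((slotEquiv e).injective h')]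
  have := pfin_map e hf (An n) s t
  simp only [pfin] at this
  rw [hb, this]

end Natural

end Vale.Agent.P143
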